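import Vale.Agent.P344.Cmat

/-! Frames: quadratic phases over `ZMod 4` and their cost. -/

namespace Vale.Agent.P344

open Matrix
open scoped Kronecker

abbrev Fr (μ : Type) := Matrix μ μ (ZMod 4)

/-- `Cheap c Q`: `Q` is a sum of `c` rank-one squares and of doubled rank-one squares. -/
inductive Cheap {μ : Type} : ℕ → Fr μ → Prop
  | one (v : μ → ZMod 4) : Cheap 1 (vecMulVec v v)
  | two (v : μ → ZMod 4) : Cheap 0 (vecMulVec v v + vecMulVec v v)
  | add {a b : ℕ} {Q Q' : Fr μ} : Cheap a Q → Cheap b Q' → Cheap (a + b) (Q + Q')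

section
variable {μ μ' : Type}

theorem Cheap.zero : Cheap 0 (0 : Fr μ) := by
  simpa using Cheap.two (0 : μ → ZMod 4)

theorem Cheap.of_eq {a b : ℕ} {Q Q' : Fr μ} (h : Cheap a Q) (hab : a = b) (hQ : Q = Q') :
    Cheap b Q' := hab ▸ hQ ▸ h

theorem Cheap.mono {a b : ℕ} {Q : Fr μ} (h : Cheap a Q) (hab : a ≤ b) : Cheap b Q := by
  induction hab with
  | refl => exact h
  | step _ ih => simpa using ih.add (Cheap.one 0)

theorem Cheap.neg {a : ℕ} {Q : Fr μ} (h : Cheap a Q) : Cheap a (-Q) := by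
  induction h with
  | one v =>
    refine ((Cheap.one v).add (Cheap.two v)).of_eq rfl ?_
    ext i j
    have : ∀ x : ZMod 4, x + (x + x) = -x := by decide
    simp [this]
  | two v =>
    refine (Cheap.two v).of_eq rfl ?_
    ext i j
    have : ∀ x : ZMod 4, x + x = -x + -x := by decide
    simpa using this _
  | add _ _ ih ih' => exact (ih.add ih').of_eq rfl (by abel)

theorem Cheap.sum {β : Type*} (t : Finset β) (c : β → ℕ) (Q : β → Fr μ)
    (h : ∀ b ∈ t, Cheap (c b) (Q b)) : Cheap (∑ b ∈ t, c b) (∑ b ∈ t, Q b) := by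
  classical
  induction t using Finset.induction_on with
  | empty => simpa using Cheap.zero
  | insert b t hb ih =>
    rw [Finset.sum_insert hb, Finset.sum_insert hb]
    exact (h b (by simp)).add (ih fun b' hb' => h b' (by simp [hb']))

theorem vecMulVec_kron (v : μ → ZMod 4) (w : μ' → ZMod 4) :
    vecMulVec v v ⊗ₖ vecMulVec w w =
      vecMulVec (fun p : μ × μ' => v p.1 * w p.2) (fun p : μ × μ' => v p.1 * w p.2) := by
  ext p q
  simp only [kroneckerMap_apply, vecMulVec_apply]; ring

theorem Cheap.kron_one {b : ℕ} {R : Fr μ'} (v : μ → ZMod 4) (h : Cheap b R) :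
    Cheap b (vecMulVec v v ⊗ₖ R) := by
  induction h with
  | one w => rw [vecMulVec_kron]; exact Cheap.one _
  | two w => rw [Matrix.kronecker_add, vecMulVec_kron]; exact Cheap.two _
  | add _ _ ih ih' => rw [Matrix.kronecker_add]; exact ih.add ih'

theorem Cheap.double {b : ℕ} {R : Fr μ} (h : Cheap b R) : Cheap 0 (R + R) := by
  induction h with
  | one w => exact Cheap.two _
  | two w => exact (Cheap.two w).add (Cheap.two w)
  | add _ _ ih ih' => exact (ih.add ih').of_eq rfl (by abel)

theorem Cheap.kron {a b : ℕ} {Q : Fr μ} {R : Fr μ'} (h : Cheap a Q) (h' : Cheap b R) :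
    Cheap (a * b) (Q ⊗ₖ R) := by
  induction h with
  | one v => simpa using h'.kron_one v
  | two v => rw [Matrix.add_kronecker]; simpa using (h'.kron_one v).double
  | add _ _ ih ih' => rw [Matrix.add_kronecker, add_mul]; exact ih.add ih'

end

def lift2 (s : ZMod 2) : ZMod 4 := if s = 0 then 0 else 1

def red4 : ZMod 4 →+* ZMod 2 := ZMod.castHom (by norm_num) (ZMod 2)

theorem red4_lift2 (s : ZMod 2) : red4 (lift2 s) = s := by
  revert s; decide

theorem sq_eq_lift2 (t : ZMod 4) : t * t = lift2 (red4 t) := by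
  revert t; decide

noncomputable def e4 (t : ZMod 4) : ℂ := Complex.I ^ t.val

theorem e4_zero : e4 0 = 1 := by simp [e4]

theorem e4_add (a b : ZMod 4) : e4 (a + b) = e4 a * e4 b := by
  rw [e4, e4, e4, ZMod.val_add, ← pow_add, ← pow_eq_pow_mod _ Complex.I_pow_four]

theorem e4_sum {β : Type*} (t : Finset β) (f : β → ZMod 4) :
    e4 (∑ b ∈ t, f b) = ∏ b ∈ t, e4 (f b) := by
  classical
  induction t using Finset.induction_on with
  | empty => simp [e4_zero]
  | insert b t hb ih => rw [Finset.sum_insert hb, Finset.prod_insert hb, e4_add, ih]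

noncomputable def sg (s : ZMod 2) : ℂ := ZMod.stdAddChar s

theorem sg_zero : sg 0 = 1 := by simp [sg]

theorem sg_one : sg 1 = -1 := by
  have : (1 : ZMod 2) = ((1 : ℤ) : ZMod 2) := by simp
  rw [sg, this, ZMod.stdAddChar_coe, ← Complex.exp_pi_mul_I]
  congr 1; push_cast; ring

theorem sg_add (a b : ZMod 2) : sg (a + b) = sg a * sg b := AddChar.map_add_eq_mul _ _ _

theorem sg_sum {β : Type*} (t : Finset β) (f : β → ZMod 2) :
    sg (∑ b ∈ t, f b) = ∏ b ∈ t, sg (f b) := by
  classical
  induction t using Finset.induction_on with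
  | empty => simp [sg_zero]
  | insert b t hb ih => rw [Finset.sum_insert hb, Finset.prod_insert hb, sg_add, ih]

theorem zmod2_cases (s : ZMod 2) : s = 0 ∨ s = 1 := by revert s; decide

theorem e4_lift2 (s : ZMod 2) : e4 (lift2 s) = al + be * sg s := by
  rcases zmod2_cases s with rfl | rfl
  · simp [lift2, e4_zero, sg_zero, al_add_be]
  · have : lift2 1 = 1 := by decide
    rw [this, sg_one, mul_neg, mul_one, ← sub_eq_add_neg, al_sub_be, e4]
    have : (1 : ZMod 4).val = 1 := by decide
    rw [this, pow_one]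

theorem e4_lift2_double (s : ZMod 2) : e4 (lift2 s + lift2 s) = sg s := by
  rcases zmod2_cases s with rfl | rfl
  · simp [lift2, e4_zero, sg_zero]
  · have : (lift2 1 + lift2 1).val = 2 := by decide
    rw [e4, this, sg_one, Complex.I_sq]

/-- The Walsh–Hadamard matrix. -/
noncomputable def Had (J : Type) [Fintype J] : Matrix (J → ZMod 2) (J → ZMod 2) ℂ :=
  piMat fun _ : J => FZ 2

theorem isFourier_Had (J : Type) [Fintype J] [DecidableEq J] : IsFourier (Had J) :=
  IsFourier.pi fun _ => isFourier_FZ 2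

theorem Had_apply (J : Type) [Fintype J] (ξ g : J → ZMod 2) :
    Had J ξ g = sg (∑ p, ξ p * g p) := by
  rw [sg_sum]; rfl

theorem prod_expand {J J' : Type} [Fintype J] [DecidableEq J] [Fintype J'] [DecidableEq J']
    (g : J' → (J → ZMod 2)) (ξ : J → ZMod 2) :
    ∏ j, (al + be * Had J ξ (g j)) = ∑ z, cfun J' z * Had J ξ (∑ j, z j • g j) := by
  have h1 : ∀ j, al + be * Had J ξ (g j) = ∑ t : ZMod 2, cf t * Had J ξ (t • g j) := by
    intro j
    have : (Finset.univ : Finset (ZMod 2)) = {0, 1} := by decide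
    rw [this, Finset.sum_pair (by decide)]
    simp [cf, (isFourier_Had J).zero]
  simp only [h1]
  rw [Finset.prod_univ_sum, Fintype.piFinset_univ]
  refine Finset.sum_congr rfl fun z _ => ?_
  rw [(isFourier_Had J).sum_right, cfun, Finset.prod_mul_distrib]

section
variable {μ : Type} [Fintype μ] [DecidableEq μ] (κ : Type) [Fintype κ] [DecidableEq κ]

def qf (Q : Fr μ) (ξ : μ → ZMod 2) : ZMod 4 := ∑ a, ∑ b, Q a b * lift2 (ξ a) * lift2 (ξ b)

noncomputable def symb (Q : Fr μ) (ξ : μ × κ → ZMod 2) : ℂ := ∏ j, e4 (qf Q fun a => ξ (a, j))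

/-- The operator attached to a frame. -/
noncomputable def Phi (Q : Fr μ) : Matrix (μ × κ → ZMod 2) (μ × κ → ZMod 2) ℂ :=
  Mu (Had (μ × κ)) (symb κ Q)

omit [DecidableEq μ] in
theorem qf_add (Q Q' : Fr μ) (ξ : μ → ZMod 2) : qf (Q + Q') ξ = qf Q ξ + qf Q' ξ := by
  simp [qf, add_mul, Finset.sum_add_distrib]

theorem Phi_add (Q Q' : Fr μ) : Phi κ (Q + Q') = Phi κ Q * Phi κ Q' := by
  rw [Phi, Phi, Phi, ← (isFourier_Had _).Mu_mul]
  congr 1
  funext ξ
  simp [symb, qf_add, e4_add, Finset.prod_mul_distrib]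

theorem Phi_zero : Phi κ (0 : Fr μ) = 1 := by
  rw [Phi, ← (isFourier_Had _).Mu_one]
  congr 1
  funext ξ
  simp [symb, qf, e4_zero]

omit [DecidableEq μ] in
theorem qf_vec (v : μ → ZMod 4) (ξ : μ → ZMod 2) :
    qf (vecMulVec v v) ξ = lift2 (∑ a, ξ a * red4 (v a)) := by
  have : qf (vecMulVec v v) ξ = (∑ a, v a * lift2 (ξ a)) * (∑ a, v a * lift2 (ξ a)) := by
    rw [Finset.sum_mul_sum, qf]
    refine Finset.sum_congr rfl fun a _ => Finset.sum_congr rfl fun b _ => ?_
    rw [vecMulVec_apply]; ring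
  rw [this, sq_eq_lift2, map_sum]
  simp [red4_lift2, mul_comm]

/-- The direction `v` placed in column `j`. -/
def dirn (v : μ → ZMod 4) (j : κ) : μ × κ → ZMod 2 := fun p => if p.2 = j then red4 (v p.1) else 0

omit [DecidableEq μ] in
theorem Had_dirn (v : μ → ZMod 4) (j : κ) (ξ : μ × κ → ZMod 2) :
    Had (μ × κ) ξ (dirn κ v j) = sg (∑ a, ξ (a, j) * red4 (v a)) := by
  rw [Had_apply, Fintype.sum_prod_type]
  simp [dirn]

theorem cx_Phi_two (v : μ → ZMod 4) : cx (Phi κ (vecMulVec v v + vecMulVec v v)) = 0 := by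
  have : symb κ (vecMulVec v v + vecMulVec v v) =
      fun ξ => Had (μ × κ) ξ (∑ j, dirn κ v j) := by
    funext ξ
    rw [(isFourier_Had _).sum_right]
    simp only [symb, qf_add, qf_vec, e4_lift2_double, Had_dirn]
  refine cx_eq_zero _ fun x => mem_base_of (x - ∑ j, dirn κ v j) fun y => ?_
  rw [Phi, this, (isFourier_Had _).Mu_char]
  refine if_congr ?_ rfl rfl
  constructor
  · intro h; rw [← h]; abel
  · intro h; rw [h]; abel

theorem cx_Phi_one (v : μ → ZMod 4) : (cx (Phi κ (vecMulVec v v)) : ℝ) ≤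
    2 ^ (Fintype.card μ * Fintype.card κ) * aC (Fintype.card κ) := by
  by_cases hv : ∃ a, red4 (v a) ≠ 0
  · obtain ⟨a, ha⟩ := hv
    have ha1 : red4 (v a) = 1 := (zmod2_cases _).resolve_left ha
    let ι : (κ → ZMod 2) →+ (μ × κ → ZMod 2) :=
      { toFun := fun z => ∑ j, z j • dirn κ v j
        map_zero' := by simp
        map_add' := fun z z' => by simp [add_smul, Finset.sum_add_distrib] }
    have hι : Function.Injective ι := by
      intro z z' h
      funext j
      have := congrFun h (a, j)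
      simpa [ι, Finset.sum_apply, dirn, ha1] using this
    have hs : symb κ (vecMulVec v v) = fun ξ => ∑ z, cfun κ z * Had (μ × κ) ξ (ι z) := by
      funext ξ
      have := prod_expand (dirn κ v) ξ
      simp only [symb, qf_vec, e4_lift2, ← Had_dirn]
      exact this
    have h := cx_conv ι hι (cfun κ) (Phi κ (vecMulVec v v)) fun x y => by
      rw [Phi, hs, (isFourier_Had _).Mu_chars]
    simp only [Fintype.card_pi, ZMod.card, Finset.prod_const, Finset.card_univ,
      Fintype.card_prod] at h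
    have h' : (cx (Phi κ (vecMulVec v v)) : ℝ) * 2 ^ Fintype.card κ ≤
        2 ^ (Fintype.card μ * Fintype.card κ) * cx (Cmat κ) := by exact_mod_cast h
    rw [cx_Cmat] at h'
    have hp : (0 : ℝ) < 2 ^ Fintype.card κ := by positivity
    refine le_of_mul_le_mul_right ?_ hp
    linarith
  · push Not at hv
    have : Phi κ (vecMulVec v v) = 1 := by
      rw [Phi, ← (isFourier_Had _).Mu_one]
      congr 1
      funext ξ
      simp [symb, qf_vec, hv, lift2, e4_zero]
    rw [this, cx_one]
    have := aC_nonneg (Fintype.card κ)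
    push_cast; positivity

theorem Phi_id : Phi κ (1 : Fr μ) = Cmat (μ × κ) := by
  have hs : symb κ (1 : Fr μ) = fun ξ => ∑ z, cfun (μ × κ) z * Had (μ × κ) ξ z := by
    funext ξ
    have h := prod_expand (fun p : μ × κ => (Pi.single p 1 : μ × κ → ZMod 2)) ξ
    have h2 : ∀ z : μ × κ → ZMod 2, ∑ p, z p • (Pi.single p 1 : μ × κ → ZMod 2) = z := by
      intro z; funext q; simp [Finset.sum_apply, Pi.single_apply]
    simp only [h2] at h
    rw [← h, symb, Fintype.prod_prod_type_right]
    refine Finset.prod_congr rfl fun j _ => ?_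
    have h3 : qf (1 : Fr μ) (fun a => ξ (a, j)) = ∑ a, lift2 (ξ (a, j)) := by
      simp only [qf, Matrix.one_apply, ite_mul, one_mul, zero_mul, Finset.sum_ite_eq,
        Finset.mem_univ, if_true]
      refine Finset.sum_congr rfl fun a _ => ?_
      rw [sq_eq_lift2, red4_lift2]
    rw [h3, e4_sum]
    refine Finset.prod_congr rfl fun a _ => ?_
    rw [e4_lift2, Had_apply]
    simp [Pi.single_apply]
  rw [Phi, hs, Cmat, (isFourier_Had _).circulant_eq]

theorem Cheap.cx_le {c : ℕ} {Q : Fr μ} (h : Cheap c Q) : (cx (Phi κ Q) : ℝ) ≤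
    2 ^ (Fintype.card μ * Fintype.card κ) * (c * aC (Fintype.card κ)) := by
  induction h with
  | one v => simpa using cx_Phi_one κ v
  | two v => simp [cx_Phi_two]
  | @add a b Q Q' _ _ ih ih' =>
    have : (cx (Phi κ (Q + Q')) : ℝ) ≤ cx (Phi κ Q) + cx (Phi κ Q') := by
      rw [Phi_add]; exact_mod_cast cx_mul _ _
    push_cast; linarith

end

end Vale.Agent.P344
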