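import Vale.Agent.P344.Prog

/-! The local shear network on triples. -/

namespace Vale.Agent.P344

open Matrix

section cheap
variable {H : Type} [DecidableEq H]

def ind (S : Finset H) : H → ZMod 4 := fun i => if i ∈ S then 1 else 0

def PS (S : Finset H) : Fr H := vecMulVec (ind S) (ind S)

def dI (U : Finset H) : Fr H := diagonal (ind U)

theorem cheap_PS (S : Finset H) : Cheap 1 (PS S) := Cheap.one _

theorem cheap_dI (U : Finset H) : Cheap U.card (dI U) := by
  refine (Cheap.sum U (fun _ => 1) (fun i => PS {i}) fun i _ => cheap_PS _).of_eq (by simp) ?_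
  ext a b
  simp only [Matrix.sum_apply, PS, vecMulVec_apply, ind, Finset.mem_singleton, dI,
    diagonal_apply, mul_ite, mul_one, mul_zero]
  by_cases hab : a = b
  · subst hab; simp
  · simp [hab]

theorem four_id (U : Finset H) (hU : U.card = 4) :
    dI U = ∑ i ∈ U, PS (U.erase i) + (PS U + PS U) := by
  ext a b
  simp only [Matrix.add_apply, Matrix.sum_apply, PS, vecMulVec_apply, ind, Finset.mem_erase, dI,
    diagonal_apply]
  by_cases ha : a ∈ U
  · by_cases hb : b ∈ U
    · have e : ∑ i ∈ U, ((if a ≠ i ∧ a ∈ U then (1 : ZMod 4) else 0) *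
          (if b ≠ i ∧ b ∈ U then 1 else 0)) = (((U.erase a).erase b).card : ZMod 4) := by
        rw [Finset.card_eq_sum_ones, Nat.cast_sum]
        symm
        refine Finset.sum_subset_zero_on_sdiff
          ((Finset.erase_subset _ _).trans (Finset.erase_subset _ _)) ?_ ?_
        · intro i hi
          simp only [Finset.mem_sdiff, Finset.mem_erase, not_and] at hi
          by_cases h1 : a = i
          · simp [h1]
          · by_cases h2 : b = i
            · simp [h2]
            · exact absurd hi.1 (hi.2 (Ne.symm h2) (Ne.symm h1))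
        · intro i hi
          simp only [Finset.mem_erase] at hi
          simp [ha, hb, Ne.symm hi.1, Ne.symm hi.2.1]
      rw [e]
      by_cases hab : a = b
      · subst hab
        rw [Finset.erase_idem, Finset.card_erase_of_mem ha, hU]
        simp only [ha, if_true]
        decide
      · rw [Finset.card_erase_of_mem (by simp [hb, Ne.symm hab]), Finset.card_erase_of_mem ha, hU]
        simp only [ha, hb, hab, if_true, if_false]
        decide
    · have hab : a ≠ b := fun h => hb (h ▸ ha)
      simp [hb, hab]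
  · simp [ha]

theorem dI_union {U U' : Finset H} (h : Disjoint U U') : dI (U ∪ U') = dI U + dI U' := by
  ext a b
  simp only [dI, diagonal_apply, Matrix.add_apply, ind, Finset.mem_union]
  by_cases hab : a = b
  · subst hab
    by_cases h1 : a ∈ U
    · have : a ∉ U' := Finset.disjoint_left.mp h h1
      simp [h1, this]
    · simp [h1]
  · simp [hab]

theorem cheap_a0 {S : Finset H} {d : H} (hS : S.card = 3) (hd : d ∉ S) :
    Cheap 3 (dI (insert d S) - PS S) := by
  have hU : (insert d S).card = 4 := by rw [Finset.card_insert_of_notMem hd, hS]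
  refine ((Cheap.sum S (fun _ => 1) (fun i => PS ((insert d S).erase i))
    fun i _ => cheap_PS _).add (cheap_PS (insert d S)).double).of_eq (by simp [hS]) ?_
  rw [four_id _ hU, Finset.sum_insert hd, Finset.erase_insert hd]
  abel

theorem cheap_b2 {U : Finset H} {i j : H} (hU : U.card = 4) (hi : i ∈ U) (hj : j ∈ U)
    (hij : i ≠ j) : Cheap 2 (dI U - PS (U.erase i) - PS (U.erase j)) := by
  have hj' : j ∈ U.erase i := by simp [hj, Ne.symm hij]
  refine ((Cheap.sum ((U.erase i).erase j) (fun _ => 1) (fun k => PS (U.erase k))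
    fun k _ => cheap_PS _).add (cheap_PS U).double).of_eq ?_ ?_
  · simp [Finset.card_erase_of_mem hj', Finset.card_erase_of_mem hi, hU]
  · rw [four_id _ hU, ← Finset.add_sum_erase U _ hi, ← Finset.add_sum_erase _ _ hj']
    abel

variable [Fintype H]

theorem one_eq_dI (U : Finset H) : (1 : Fr H) = dI Uᶜ + dI U := by
  rw [← dI_union disjoint_compl_left]
  ext a b
  simp [dI, ind, diagonal_apply, Matrix.one_apply, em']

theorem cheap_full : Cheap (Fintype.card H) (1 : Fr H) := by
  refine (cheap_dI Finset.univ).of_eq (by simp) ?_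
  ext a b
  simp [dI, ind, diagonal_apply, Matrix.one_apply]

theorem exists_notMem' (U : Finset H) (h : U.card < Fintype.card H) : ∃ d, d ∉ U := by
  by_contra hc
  push Not at hc
  have : U = Finset.univ := Finset.eq_univ_iff_forall.mpr hc
  rw [this] at h; simp at h

theorem cheap_compl1 (hH : 8 ≤ Fintype.card H) {S : Finset H} (hS : S.card = 3) :
    Cheap (Fintype.card H - 1) (1 - PS S) := by
  obtain ⟨d, hd⟩ := exists_notMem' S (by omega)
  have hU : (insert d S).card = 4 := by rw [Finset.card_insert_of_notMem hd, hS]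
  refine ((cheap_dI (insert d S)ᶜ).add (cheap_a0 hS hd)).of_eq ?_ ?_
  · rw [Finset.card_compl, hU]; omega
  · rw [one_eq_dI (insert d S)]; abel

theorem cheap_compl2 (hH : 8 ≤ Fintype.card H) {S T : Finset H} (hS : S.card = 3)
    (hT : T.card = 3) (hST : Even (S ∩ T).card) :
    Cheap (Fintype.card H - 2) (1 - PS T - PS S) := by
  have hle : (S ∩ T).card ≤ 3 := hS ▸ Finset.card_le_card Finset.inter_subset_left
  have hun := Finset.card_union_add_card_inter S T
  rcases (show (S ∩ T).card = 0 ∨ (S ∩ T).card = 2 by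
    obtain ⟨k, hk⟩ := hST; omega) with h0 | h2
  · have hdis : Disjoint S T := Finset.disjoint_iff_inter_eq_empty.mpr (Finset.card_eq_zero.mp h0)
    obtain ⟨d, hd⟩ := exists_notMem' (S ∪ T) (by omega)
    obtain ⟨d', hd'⟩ := exists_notMem' (insert d (S ∪ T))
      (by rw [Finset.card_insert_of_notMem hd]; omega)
    simp only [Finset.mem_union, Finset.mem_insert, not_or] at hd hd'
    have hdis' : Disjoint (insert d S) (insert d' T) := by
      simp only [Finset.disjoint_insert_left, Finset.disjoint_insert_right, Finset.mem_insert,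
        not_or]
      exact ⟨⟨hd'.1, hd'.2.1⟩, hd.2, hdis⟩
    refine (((cheap_dI (insert d S ∪ insert d' T)ᶜ).add (cheap_a0 hS hd.1)).add
      (cheap_a0 hT hd'.2.2)).of_eq ?_ ?_
    · rw [Finset.card_compl, Finset.card_union_of_disjoint hdis',
        Finset.card_insert_of_notMem hd.1, Finset.card_insert_of_notMem hd'.2.2]
      omega
    · rw [one_eq_dI (insert d S ∪ insert d' T), dI_union hdis']; abel
  · have hU : (S ∪ T).card = 4 := by omega
    obtain ⟨i, hi⟩ : ∃ i, T \ S = {i} := Finset.card_eq_one.mp (by
      have := Finset.card_sdiff_add_card_inter T S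
      rw [Finset.inter_comm] at this; omega)
    obtain ⟨j, hj⟩ : ∃ j, S \ T = {j} := Finset.card_eq_one.mp (by
      have := Finset.card_sdiff_add_card_inter S T
      omega)
    have hi' : ∀ x, x ∈ T ∧ x ∉ S ↔ x = i := fun x => by
      rw [← Finset.mem_singleton, ← hi, Finset.mem_sdiff]
    have hj' : ∀ x, x ∈ S ∧ x ∉ T ↔ x = j := fun x => by
      rw [← Finset.mem_singleton, ← hj, Finset.mem_sdiff]
    have e1 : (S ∪ T).erase i = S := by
      ext x; simp only [Finset.mem_erase, Finset.mem_union, ne_eq, ← hi']; tauto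
    have e2 : (S ∪ T).erase j = T := by
      ext x; simp only [Finset.mem_erase, Finset.mem_union, ne_eq, ← hj']; tauto
    have hiT := ((hi' i).mpr rfl)
    have hjS := ((hj' j).mpr rfl)
    have hij : i ≠ j := fun h => hiT.2 (h ▸ hjS.1)
    have := cheap_b2 hU (Finset.mem_union_right _ hiT.1) (Finset.mem_union_left _ hjS.1) hij
    rw [e1, e2] at this
    refine ((cheap_dI (S ∪ T)ᶜ).add this).of_eq ?_ ?_
    · rw [Finset.card_compl, hU]; omega
    · rw [one_eq_dI (S ∪ T)]; abel

end cheap

section blocks
variable {D A : Type} [Fintype D] [DecidableEq D] [Fintype A] [DecidableEq A]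

/-- Ancillas receive a combination of data. -/
noncomputable def low (U : Matrix A D ℂ) : Matrix (D ⊕ A) (D ⊕ A) ℂ := fromBlocks 1 0 U 1

/-- Data receive a combination of ancillas. -/
noncomputable def up (V : Matrix D A ℂ) : Matrix (D ⊕ A) (D ⊕ A) ℂ := fromBlocks 1 V 0 1

theorem low_mul_low (U U' : Matrix A D ℂ) : low U * low U' = low (U' + U) := by
  simp [low, fromBlocks_multiply, add_comm]

theorem up_mul_up (V V' : Matrix D A ℂ) : up V * up V' = up (V + V') := by
  simp [up, fromBlocks_multiply, add_comm]

theorem comm_fwd (U : Matrix A D ℂ) (V : Matrix D A ℂ) (h : U * V = 0) :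
    low (-U) * (up V * (low U * up (-V))) = fromBlocks (1 + V * U) 0 0 1 := by
  simp [low, up, fromBlocks_multiply, h, Matrix.mul_add, ← Matrix.mul_assoc]

theorem comm_bwd (U : Matrix A D ℂ) (V : Matrix D A ℂ) (h : U * V = 0) :
    up V * (low (-U) * (up (-V) * low U)) = fromBlocks (1 - V * U) 0 0 1 := by
  simp [low, up, fromBlocks_multiply, h, Matrix.mul_add, ← Matrix.mul_assoc, sub_eq_add_neg]

omit [Fintype D] [Fintype A] in
theorem resp_low {X : Type} (f : D ⊕ A → X) (U : Matrix A D ℂ)
    (h : ∀ a d, U a d ≠ 0 → f (Sum.inr a) = f (Sum.inl d)) :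
    ∀ w w', low U w w' ≠ 0 → f w = f w' := by
  rintro (d | a) (d' | a') hw
  · by_cases e : d = d'
    · rw [e]
    · simp [low, Matrix.one_apply_ne e] at hw
  · simp [low] at hw
  · exact h a d' hw
  · by_cases e : a = a'
    · rw [e]
    · simp [low, Matrix.one_apply_ne e] at hw

omit [Fintype D] [Fintype A] in
theorem resp_up {X : Type} (f : D ⊕ A → X) (V : Matrix D A ℂ)
    (h : ∀ a d, V d a ≠ 0 → f (Sum.inr a) = f (Sum.inl d)) :
    ∀ w w', up V w w' ≠ 0 → f w = f w' := by
  rintro (d | a) (d' | a') hw
  · by_cases e : d = d'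
    · rw [e]
    · simp [up, Matrix.one_apply_ne e] at hw
  · exact (h a' d hw).symm
  · simp [up] at hw
  · by_cases e : a = a'
    · rw [e]
    · simp [up, Matrix.one_apply_ne e] at hw

end blocks

end Vale.Agent.P344
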