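import Mathlib

/-! An abstract calculus of gate counts. -/

namespace Vale.Agent.P344

open Matrix

section
variable {M M' : Type*} [AddCommGroup M] [Module ℂ M] [AddCommGroup M'] [Module ℂ M']

/-- `f` arises from `A` by one gate. -/
def Step (A : Set M) (f : M) : Prop :=
  (∃ u ∈ A, ∃ v ∈ A, f = u + v) ∨ (∃ u ∈ A, ∃ v ∈ A, f = u - v) ∨ (∃ c : ℂ, ∃ u ∈ A, f = c • u)

theorem Step.mono {A A' : Set M} {f : M} (h : A ⊆ A') (hs : Step A f) : Step A' f := by
  rcases hs with ⟨u, hu, v, hv, rfl⟩ | ⟨u, hu, v, hv, rfl⟩ | ⟨c, u, hu, rfl⟩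
  · exact Or.inl ⟨u, h hu, v, h hv, rfl⟩
  · exact Or.inr (Or.inl ⟨u, h hu, v, h hv, rfl⟩)
  · exact Or.inr (Or.inr ⟨c, u, h hu, rfl⟩)

theorem Step.map {A : Set M} {f : M} (φ : M →ₗ[ℂ] M') (hs : Step A f) :
    Step (φ '' A) (φ f) := by
  rcases hs with ⟨u, hu, v, hv, rfl⟩ | ⟨u, hu, v, hv, rfl⟩ | ⟨c, u, hu, rfl⟩
  · exact Or.inl ⟨_, ⟨u, hu, rfl⟩, _, ⟨v, hv, rfl⟩, by simp⟩
  · exact Or.inr (Or.inl ⟨_, ⟨u, hu, rfl⟩, _, ⟨v, hv, rfl⟩, by simp⟩)
  · exact Or.inr (Or.inr ⟨c, _, ⟨u, hu, rfl⟩, by simp⟩)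

/-- `Ext s A B`: all of `B` is obtained from `A` with at most `s` gates. -/
inductive Ext : ℕ → Set M → Set M → Prop
  | done {s : ℕ} {A B : Set M} : B ⊆ A → Ext s A B
  | step {s : ℕ} {A B : Set M} {f : M} : Step A f → Ext s (insert f A) B → Ext (s + 1) A B

theorem Ext.mono_left {s : ℕ} {A A' B : Set M} (h : Ext s A B) (hA : A ⊆ A') : Ext s A' B := by
  induction h generalizing A' with
  | done hB => exact Ext.done (hB.trans hA)
  | step hs _ ih => exact Ext.step (hs.mono hA) (ih (Set.insert_subset_insert hA))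

theorem Ext.mono_right {s : ℕ} {A B B' : Set M} (h : Ext s A B) (hB : B' ⊆ B) : Ext s A B' := by
  induction h with
  | done h => exact Ext.done (hB.trans h)
  | step hs _ ih => exact Ext.step hs (ih hB)

theorem Ext.mono_num {s t : ℕ} {A B : Set M} (h : Ext s A B) (hst : s ≤ t) : Ext t A B := by
  induction h generalizing t with
  | done h => exact Ext.done h
  | step hs _ ih =>
    obtain ⟨t, rfl⟩ : ∃ t', t = t' + 1 := ⟨t - 1, by omega⟩
    exact Ext.step hs (ih (by omega))

theorem Ext.keep {s : ℕ} {A B : Set M} (h : Ext s A B) : Ext s A (A ∪ B) := by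
  induction h with
  | done h => exact Ext.done (Set.union_subset subset_rfl h)
  | step hs _ ih =>
    exact Ext.step hs (ih.mono_right (Set.union_subset_union_left _ (Set.subset_insert _ _)))

theorem Ext.trans {s t : ℕ} {A B D : Set M} (h : Ext s A B) (h' : Ext t B D) :
    Ext (s + t) A D := by
  induction h with
  | done h => exact (h'.mono_left h).mono_num (by omega)
  | @step s A B f hs _ ih =>
    have : s + 1 + t = (s + t) + 1 := by omega
    rw [this]
    exact Ext.step hs (ih h')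

theorem Ext.union {s t : ℕ} {A B D : Set M} (h : Ext s A B) (h' : Ext t A D) :
    Ext (s + t) A (B ∪ D) := by
  refine (h.keep.trans (h'.mono_left Set.subset_union_left).keep).mono_right ?_
  intro x hx
  rcases hx with hx | hx
  · exact Or.inl (Or.inr hx)
  · exact Or.inr hx

theorem Ext.map {s : ℕ} {A B : Set M} (φ : M →ₗ[ℂ] M') (h : Ext s A B) :
    Ext s (φ '' A) (φ '' B) := by
  induction h with
  | done h => exact Ext.done (Set.image_mono h)
  | step hs _ ih =>
    rw [Set.image_insert_eq] at ih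
    exact Ext.step (hs.map φ) ih

theorem Ext.biUnion {β : Type*} (t : Finset β) (s : β → ℕ) {A : Set M} (B : β → Set M)
    (h : ∀ b ∈ t, Ext (s b) A (B b)) : Ext (∑ b ∈ t, s b) A (⋃ b ∈ t, B b) := by
  classical
  induction t using Finset.induction_on with
  | empty => exact Ext.done (by simp)
  | insert b t hb ih =>
    rw [Finset.sum_insert hb, Finset.set_biUnion_insert]
    exact (h b (by simp)).union (ih fun b' hb' => h b' (by simp [hb']))

theorem Ext.one {A : Set M} {f : M} (hs : Step A f) : Ext 1 A {f} :=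
  Ext.step hs (Ext.done (by simp))

theorem Ext.lincomb {β : Type*} (t : Finset β) (c : β → ℂ) (u : β → M) {A : Set M}
    (h0 : (0 : M) ∈ A) (hu : ∀ b ∈ t, u b ∈ A) :
    Ext (2 * t.card) A {∑ b ∈ t, c b • u b} := by
  classical
  induction t using Finset.induction_on with
  | empty => exact Ext.done (by simpa using h0)
  | insert b t hb ih =>
    rw [Finset.sum_insert hb, Finset.card_insert_of_notMem hb]
    have h1 : Ext 1 A {c b • u b} := Ext.one (Or.inr (Or.inr ⟨c b, u b, hu b (by simp), rfl⟩))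
    have h2 := (ih fun b' hb' => hu b' (by simp [hb'])).union h1
    have h3 : Ext 1 ({∑ b ∈ t, c b • u b} ∪ {c b • u b} : Set M)
        {c b • u b + ∑ b ∈ t, c b • u b} :=
      Ext.one (Or.inl ⟨_, by simp, _, by simp, rfl⟩)
    exact (h2.trans h3).mono_num (by omega)

end

section
variable {ι ι' κ κ' : Type*}

/-- The linear forms available for free: the coordinates and zero. -/
def base (ι : Type*) [DecidableEq ι] : Set (ι → ℂ) :=
  insert 0 (Set.range fun i : ι => (Pi.single i 1 : ι → ℂ))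

theorem zero_mem_base [DecidableEq ι] : (0 : ι → ℂ) ∈ base ι := Or.inl rfl

theorem single_mem_base [DecidableEq ι] (i : ι) : (Pi.single i 1 : ι → ℂ) ∈ base ι :=
  Or.inr ⟨i, rfl⟩

theorem mem_base_of [DecidableEq ι] {v : ι → ℂ} (i : ι)
    (h : ∀ j, v j = if j = i then 1 else 0) : v ∈ base ι := by
  have : v = Pi.single i 1 := by
    funext j; rw [h j, Pi.single_apply]
  rw [this]; exact single_mem_base i

/-- The least number of gates computing all rows of `A`. -/
noncomputable def cx [DecidableEq ι] (A : Matrix κ ι ℂ) : ℕ :=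
  sInf {s | Ext s (base ι) (Set.range A)}

theorem ext_row [Fintype ι] [DecidableEq ι] (v : ι → ℂ) :
    Ext (2 * Fintype.card ι) (base ι) {v} := by
  have h := Ext.lincomb (Finset.univ : Finset ι) v (fun i => (Pi.single i 1 : ι → ℂ))
    (zero_mem_base (ι := ι)) (fun i _ => single_mem_base i)
  have e : ∑ b : ι, v b • (Pi.single b 1 : ι → ℂ) = v := by
    funext j; simp [Finset.sum_apply, Pi.single_apply]
  rwa [e] at h

theorem ext_of_rows [Fintype κ] [DecidableEq ι] (A : Matrix κ ι ℂ) (s : κ → ℕ)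
    (h : ∀ j, Ext (s j) (base ι) {A j}) : Ext (∑ j, s j) (base ι) (Set.range A) := by
  refine (Ext.biUnion Finset.univ s (fun j => {A j}) fun j _ => h j).mono_right ?_
  rintro _ ⟨j, rfl⟩
  simp only [Finset.mem_univ, Set.iUnion_true, Set.mem_iUnion]
  exact ⟨j, rfl⟩

theorem cx_le [DecidableEq ι] {A : Matrix κ ι ℂ} {s : ℕ} (h : Ext s (base ι) (Set.range A)) :
    cx A ≤ s := Nat.sInf_le h

theorem cx_spec [Fintype ι] [DecidableEq ι] [Fintype κ] (A : Matrix κ ι ℂ) :
    Ext (cx A) (base ι) (Set.range A) :=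
  Nat.sInf_mem (s := {s | Ext s (base ι) (Set.range A)})
    ⟨_, ext_of_rows A _ fun j => ext_row (A j)⟩

theorem cx_le_of_rows [Fintype κ] [DecidableEq ι] (A : Matrix κ ι ℂ) (s : ℕ)
    (h : ∀ j, Ext s (base ι) {A j}) : cx A ≤ Fintype.card κ * s := by
  have := cx_le (ext_of_rows A (fun _ => s) h)
  simpa using this

theorem cx_le_trivial [Fintype ι] [DecidableEq ι] [Fintype κ] (A : Matrix κ ι ℂ) :
    cx A ≤ Fintype.card κ * (2 * Fintype.card ι) :=
  cx_le_of_rows A _ fun j => ext_row (A j)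

theorem cx_eq_zero [DecidableEq ι] (A : Matrix κ ι ℂ) (h : ∀ j, A j ∈ base ι) : cx A = 0 := by
  have : cx A ≤ 0 := cx_le (Ext.done (by rintro _ ⟨j, rfl⟩; exact h j))
  omega

theorem ext_mul [Fintype ι'] [DecidableEq ι'] [Fintype κ] (A : Matrix κ ι' ℂ) (B : Matrix ι' ι ℂ) :
    Ext (cx A) (insert 0 (Set.range B)) (Set.range (A * B)) := by
  have h := (cx_spec A).map (Matrix.vecMulLinear B)
  refine (h.mono_left ?_).mono_right ?_
  · rintro _ ⟨v, hv, rfl⟩
    rcases hv with rfl | ⟨i, rfl⟩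
    · simp
    · right; refine ⟨i, ?_⟩; funext j; simp [Matrix.vecMul, dotProduct, Pi.single_apply]
  · rintro _ ⟨j, rfl⟩
    exact ⟨A j, ⟨j, rfl⟩, by funext i; simp [Matrix.vecMul, dotProduct, Matrix.mul_apply]⟩

theorem cx_mul [Fintype ι] [DecidableEq ι] [Fintype ι'] [DecidableEq ι'] [Fintype κ]
    (A : Matrix κ ι' ℂ) (B : Matrix ι' ι ℂ) : cx (A * B) ≤ cx A + cx B := by
  rw [add_comm]
  refine cx_le ((cx_spec B).keep.trans ((ext_mul A B).mono_left ?_))
  rintro v (rfl | hv)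
  · exact Or.inl zero_mem_base
  · exact Or.inr hv

/-- Master block lemma. -/
theorem cx_le_sum [DecidableEq ι] {β : Type*} [Fintype β] {κ' ι' : β → Type*}
    [∀ b, Fintype (κ' b)] [∀ b, Fintype (ι' b)] [∀ b, DecidableEq (ι' b)]
    (N : Matrix κ ι ℂ) (A : ∀ b, Matrix (κ' b) (ι' b) ℂ) (P : ∀ b, Matrix (ι' b) ι ℂ)
    (hP : ∀ b i, P b i ∈ base ι) (h : ∀ j, ∃ b j', N j = (A b * P b) j') :
    cx N ≤ ∑ b, cx (A b) := by
  refine cx_le ((Ext.biUnion Finset.univ (fun b => cx (A b)) (fun b => Set.range (A b * P b))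
    fun b _ => (ext_mul (A b) (P b)).mono_left ?_).mono_right ?_)
  · rintro v (rfl | ⟨i, rfl⟩)
    · exact zero_mem_base
    · exact hP b i
  · rintro _ ⟨j, rfl⟩
    obtain ⟨b, j', e⟩ := h j
    simp only [Finset.mem_univ, Set.iUnion_true, Set.mem_iUnion]
    exact ⟨b, j', e.symm⟩

/-- The matrix of a map, rows indexed by the source. -/
def Pm [DecidableEq ι] (g : κ → ι) : Matrix κ ι ℂ := fun k i => if i = g k then 1 else 0

theorem Pm_mem [DecidableEq ι] (g : κ → ι) (k : κ) : Pm g k ∈ base ι :=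
  mem_base_of (g k) fun _ => rfl

theorem cx_submatrix [Fintype ι] [DecidableEq ι] [DecidableEq ι'] [Fintype κ]
    (A : Matrix κ ι ℂ) (f : κ' → κ) (g : ι' → ι) (hg : Function.Injective g) :
    cx (A.submatrix f g) ≤ cx A := by
  have := cx_le_sum (β := Unit) (A.submatrix f g) (fun _ => A) (fun _ => (Pm g)ᵀ) ?_ ?_
  · simpa using this
  · intro _ i
    by_cases hi : ∃ k, i = g k
    · obtain ⟨k, rfl⟩ := hi
      refine mem_base_of k fun j => ?_
      simp [Pm, hg.eq_iff, eq_comm]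
    · push Not at hi
      have : (Pm g)ᵀ i = 0 := by funext j; simp [Pm, hi j]
      rw [this]; exact zero_mem_base
  · intro j
    refine ⟨(), f j, ?_⟩
    funext i
    simp [Matrix.mul_apply, Pm]

theorem cx_blockDiagonal [Fintype ι] [DecidableEq ι] [Fintype κ] {β : Type*} [Fintype β]
    [DecidableEq β] (A : β → Matrix κ ι ℂ) : cx (blockDiagonal A) ≤ ∑ b, cx (A b) := by
  refine cx_le_sum (κ' := fun _ => κ) (ι' := fun _ => ι) _ A (fun b => Pm fun i => (i, b))
    (fun b i => Pm_mem _ _) ?_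
  rintro ⟨j, b⟩
  refine ⟨b, j, ?_⟩
  funext ⟨i, b'⟩
  simp only [blockDiagonal_apply, Matrix.mul_apply, Pm, Prod.mk.injEq]
  by_cases hb : b = b'
  · subst hb; simp
  · simp [hb, Ne.symm hb]

theorem cx_fromBlocks [Fintype ι] [DecidableEq ι] [Fintype κ] [Fintype ι'] [DecidableEq ι']
    [Fintype κ'] (A : Matrix κ ι ℂ) (B : Matrix κ' ι' ℂ) :
    cx (fromBlocks A 0 0 B) ≤ cx A + cx B := by
  have h1 := (ext_mul A (Pm (Sum.inl : ι → ι ⊕ ι'))).mono_left (A' := base _) (by
    rintro v (rfl | ⟨i, rfl⟩)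
    · exact zero_mem_base
    · exact Pm_mem _ _)
  have h2 := (ext_mul B (Pm (Sum.inr : ι' → ι ⊕ ι'))).mono_left (A' := base _) (by
    rintro v (rfl | ⟨i, rfl⟩)
    · exact zero_mem_base
    · exact Pm_mem _ _)
  refine cx_le ((h1.union h2).mono_right ?_)
  rintro _ ⟨j | j, rfl⟩
  · left; refine ⟨j, ?_⟩
    funext i; rcases i with i | i <;> simp [Matrix.mul_apply, Pm]
  · right; refine ⟨j, ?_⟩
    funext i; rcases i with i | i <;> simp [Matrix.mul_apply, Pm]

theorem cx_one [DecidableEq ι] : cx (1 : Matrix ι ι ℂ) = 0 :=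
  cx_eq_zero _ fun j => mem_base_of j fun i => by simp [Matrix.one_apply, eq_comm]

theorem cx_scaled_rows [Fintype κ] [DecidableEq ι] (A : Matrix κ ι ℂ) (g : κ → ι) (d : κ → ℂ)
    (h : ∀ k i, A k i = if i = g k then d k else 0) : cx A ≤ Fintype.card κ := by
  have := cx_le_of_rows A 1 fun k => Ext.one (Or.inr (Or.inr ⟨d k, _, single_mem_base (g k), by
    funext i; rw [h]; simp [Pi.single_apply]⟩))
  simpa using this

theorem cx_diagonal [Fintype ι] [DecidableEq ι] (d : ι → ℂ) :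
    cx (diagonal d) ≤ Fintype.card ι :=
  cx_scaled_rows _ id d fun k i => by
    by_cases h : i = k
    · subst h; simp
    · simp [h, Matrix.diagonal_apply_ne' _ h]

end

end Vale.Agent.P344
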