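import Vale.Agent.P344.Defs
import Vale.Agent.P344.Ext

/-! From the abstract calculus to concrete circuits. -/

namespace Vale.Agent.P344

open Matrix

/-- Every form of `A` is a value of the circuit. -/
def Covers {n t : ℕ} (C : Circuit n t) (A : Set (Fin n → ℂ)) : Prop :=
  ∀ u ∈ A, ∃ i, ∀ x, C.values x i = u ⬝ᵥ x

theorem Covers.snoc {n t : ℕ} {C : Circuit n t} {A : Set (Fin n → ℂ)} (h : Covers C A)
    (g : Gate (n + 1 + t)) (f : Fin n → ℂ) (hf : ∀ x, g.eval (C.values x) = f ⬝ᵥ x) :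
    Covers (C.snoc g) (insert f A) := by
  rintro u (rfl | hu)
  · refine ⟨Fin.last (n + 1 + t), fun x => ?_⟩
    simp only [Circuit.values]
    exact (Fin.snoc_last (α := fun _ => ℂ) _ _).trans (hf x)
  · obtain ⟨i, hi⟩ := h u hu
    refine ⟨Fin.castSucc i, fun x => ?_⟩
    simp only [Circuit.values]
    exact (Fin.snoc_castSucc (α := fun _ => ℂ) _ _ _).trans (hi x)

theorem Ext.circuit {n s : ℕ} {A B : Set (Fin n → ℂ)} (h : Ext s A B) :
    ∀ (t : ℕ) (C : Circuit n t), Covers C A →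
      ∃ t' ≤ t + s, ∃ C' : Circuit n t', Covers C' B := by
  induction h with
  | done hB => exact fun t C hC => ⟨t, by omega, C, fun u hu => hC u (hB hu)⟩
  | @step s A B f hs _ ih =>
    intro t C hC
    have : ∃ g : Gate (n + 1 + t), ∀ x, g.eval (C.values x) = f ⬝ᵥ x := by
      rcases hs with ⟨u, hu, v, hv, rfl⟩ | ⟨u, hu, v, hv, rfl⟩ | ⟨c, u, hu, rfl⟩
      · obtain ⟨i, hi⟩ := hC u hu
        obtain ⟨j, hj⟩ := hC v hv
        exact ⟨.add i j, fun x => by simp [Gate.eval, hi, hj]⟩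
      · obtain ⟨i, hi⟩ := hC u hu
        obtain ⟨j, hj⟩ := hC v hv
        exact ⟨.sub i j, fun x => by simp [Gate.eval, hi, hj]⟩
      · obtain ⟨i, hi⟩ := hC u hu
        exact ⟨.smul c i, fun x => by simp [Gate.eval, hi]⟩
    obtain ⟨g, hg⟩ := this
    obtain ⟨t', ht', C', hC'⟩ := ih (t + 1) (C.snoc g) (hC.snoc g f hg)
    exact ⟨t', by omega, C', hC'⟩

theorem covers_nil (n : ℕ) : Covers (Circuit.nil : Circuit n 0) (base (Fin n)) := by
  rintro u (rfl | ⟨i, rfl⟩)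
  · refine ⟨Fin.last n, fun x => ?_⟩
    simp only [Circuit.values]
    exact (Fin.snoc_last (α := fun _ => ℂ) _ _).trans (by simp)
  · refine ⟨Fin.castSucc i, fun x => ?_⟩
    simp only [Circuit.values]
    exact (Fin.snoc_castSucc (α := fun _ => ℂ) _ _ _).trans (by simp)

/-- The Fourier matrix. -/
noncomputable def dftM (n : ℕ) : Matrix (Fin n) (Fin n) ℂ := fun j k =>
  Complex.exp (2 * (Real.pi : ℂ) * Complex.I / (n : ℂ)) ^ (j.val * k.val)

theorem exists_computes (n : ℕ) : ∃ s ≤ cx (dftM n), ComputesDFT n s := by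
  obtain ⟨t, ht, C, hC⟩ := (cx_spec (dftM n)).circuit 0 _ (covers_nil n)
  refine ⟨t, by omega, C, fun j => (hC _ ⟨j, rfl⟩).choose, fun x j => ?_⟩
  rw [(hC _ ⟨j, rfl⟩).choose_spec x]
  rfl

theorem computes_L (n : ℕ) : ComputesDFT n (L n) := by
  obtain ⟨s, -, hs⟩ := exists_computes n
  exact Nat.sInf_mem (s := {s : ℕ | ComputesDFT n s}) ⟨s, hs⟩

theorem L_le_cx (n : ℕ) : L n ≤ cx (dftM n) := by
  obtain ⟨s, hs, h⟩ := exists_computes n
  exact (Nat.sInf_le (s := {s : ℕ | ComputesDFT n s}) h).trans hs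

end Vale.Agent.P344
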