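import Vale.Agent.P344.Fourier

/-! Tensor powers of the square root of the swap. -/

namespace Vale.Agent.P344

open Matrix
open scoped Kronecker

noncomputable def al : ℂ := (1 + Complex.I) / 2
noncomputable def be : ℂ := (1 - Complex.I) / 2

theorem al_add_be : al + be = 1 := by simp only [al, be]; ring
theorem al_sub_be : al - be = Complex.I := by simp only [al, be]; ring

noncomputable def cf (s : ZMod 2) : ℂ := if s = 0 then al else be

noncomputable def cfun (J : Type) [Fintype J] (z : J → ZMod 2) : ℂ := ∏ j, cf (z j)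

/-- The tensor power of `[[al, be], [be, al]]`. -/
noncomputable def Cmat (J : Type) [Fintype J] : Matrix (J → ZMod 2) (J → ZMod 2) ℂ :=
  circulant (cfun J)

theorem Cmat_apply (J : Type) [Fintype J] (x y : J → ZMod 2) :
    Cmat J x y = ∏ j, cf (x j - y j) := rfl

theorem cx_kron_one {ι κ β : Type*} [Fintype ι] [DecidableEq ι] [Fintype κ] [Fintype β]
    [DecidableEq β] (A : Matrix κ ι ℂ) :
    cx (A ⊗ₖ (1 : Matrix β β ℂ)) ≤ Fintype.card β * cx A := by
  rw [Matrix.kronecker_one]
  simpa using cx_blockDiagonal (fun _ : β => A)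

theorem cx_one_kron_le {ι κ β : Type*} [Fintype ι] [DecidableEq ι] [Fintype κ] [Fintype β]
    [DecidableEq β] (A : Matrix κ ι ℂ) :
    cx ((1 : Matrix β β ℂ) ⊗ₖ A) ≤ cx (blockDiagonal fun _ : β => A) := by
  rw [Matrix.one_kronecker, Matrix.reindex_apply]
  exact cx_submatrix _ _ _ (Equiv.injective _)

theorem cx_one_kron {ι κ β : Type*} [Fintype ι] [DecidableEq ι] [Fintype κ] [Fintype β]
    [DecidableEq β] (A : Matrix κ ι ℂ) :
    cx ((1 : Matrix β β ℂ) ⊗ₖ A) ≤ Fintype.card β * cx A :=
  (cx_one_kron_le A).trans (by simpa using cx_blockDiagonal (fun _ : β => A))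

theorem kron_split {ι β : Type*} [Fintype ι] [DecidableEq ι] [Fintype β]
    [DecidableEq β] (A : Matrix ι ι ℂ) (B : Matrix β β ℂ) :
    A ⊗ₖ B = (A ⊗ₖ (1 : Matrix β β ℂ)) * ((1 : Matrix ι ι ℂ) ⊗ₖ B) := by
  rw [← Matrix.mul_kronecker_mul]; simp

theorem Cmat_sum (J J' : Type) [Fintype J] [Fintype J'] :
    Cmat (J ⊕ J') = (Cmat J ⊗ₖ Cmat J').submatrix (Equiv.sumArrowEquivProdArrow J J' (ZMod 2))
      (Equiv.sumArrowEquivProdArrow J J' (ZMod 2)) := by
  ext x y
  simp [Cmat_apply, Fintype.prod_sum_type, kroneckerMap_apply, Equiv.sumArrowEquivProdArrow]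

theorem cx_Cmat_le (J J' : Type) [Fintype J] [DecidableEq J] [Fintype J'] [DecidableEq J']
    (e : J ≃ J') : cx (Cmat J) ≤ cx (Cmat J') := by
  have : Cmat J = (Cmat J').submatrix (fun x => x ∘ e.symm) (fun x => x ∘ e.symm) := by
    ext x y
    simp only [Cmat_apply, submatrix_apply, Function.comp]
    exact Fintype.prod_equiv e _ _ fun j => by simp
  rw [this]
  refine cx_submatrix _ _ _ fun x y h => ?_
  funext j
  simpa using congrFun h (e j)

/-- Gates per entry for the `K`-th tensor power. -/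
noncomputable def aC (K : ℕ) : ℝ := (cx (Cmat (Fin K)) : ℝ) / 2 ^ K

theorem aC_nonneg (K : ℕ) : 0 ≤ aC K := by unfold aC; positivity

theorem cx_Cmat (J : Type) [Fintype J] [DecidableEq J] :
    (cx (Cmat J) : ℝ) = 2 ^ Fintype.card J * aC (Fintype.card J) := by
  have e := Fintype.equivFin J
  have : cx (Cmat J) = cx (Cmat (Fin (Fintype.card J))) :=
    le_antisymm (cx_Cmat_le _ _ e) (cx_Cmat_le _ _ e.symm)
  rw [this, aC]; field_simp

theorem aC_zero : aC 0 = 0 := by
  have : Cmat (Fin 0) = 1 := by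
    ext x y
    have : x = y := Subsingleton.elim _ _
    subst this; simp [Cmat_apply]
  simp [aC, this, cx_one]

theorem aC_one : aC 1 ≤ 4 := by
  have := cx_le_trivial (Cmat (Fin 1))
  simp only [Fintype.card_pi, ZMod.card, Finset.prod_const, Finset.card_univ,
    Fintype.card_fin] at this
  have h : (cx (Cmat (Fin 1)) : ℝ) ≤ 8 := by exact_mod_cast this
  simp only [aC]; linarith

theorem aC_add_le (K : ℕ) (J : Type) [Fintype J] [DecidableEq J] :
    aC (K + Fintype.card J) ≤ aC K +
      (cx (blockDiagonal fun _ : Fin K → ZMod 2 => Cmat J) : ℝ) / 2 ^ (K + Fintype.card J) := by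
  have h1 := cx_Cmat (Fin K ⊕ J)
  have h2 : cx (Cmat (Fin K ⊕ J)) ≤ 2 ^ Fintype.card J * cx (Cmat (Fin K)) +
      cx (blockDiagonal fun _ : Fin K → ZMod 2 => Cmat J) := by
    rw [Cmat_sum]
    refine (cx_submatrix _ _ _ (Equiv.injective _)).trans ?_
    rw [kron_split]
    refine (cx_mul _ _).trans (add_le_add ?_ (cx_one_kron_le _))
    simpa using cx_kron_one (β := J → ZMod 2) (Cmat (Fin K))
  simp only [Fintype.card_sum, Fintype.card_fin] at h1
  have h3 : (cx (Cmat (Fin K ⊕ J)) : ℝ) ≤ 2 ^ Fintype.card J * cx (Cmat (Fin K)) +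
      cx (blockDiagonal fun _ : Fin K → ZMod 2 => Cmat J) := by exact_mod_cast h2
  rw [h1] at h3
  have hp : (0 : ℝ) < 2 ^ (K + Fintype.card J) := by positivity
  have e : aC K = 2 ^ Fintype.card J * (cx (Cmat (Fin K)) : ℝ) / 2 ^ (K + Fintype.card J) := by
    rw [aC, pow_add]; field_simp
  rw [e, ← add_div, le_div_iff₀ hp]
  linarith

theorem aC_add (K K' : ℕ) : aC (K + K') ≤ aC K + aC K' := by
  have h := aC_add_le K (Fin K')
  simp only [Fintype.card_fin] at h
  refine h.trans (add_le_add_right ?_ _)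
  have h2 := cx_blockDiagonal (fun _ : Fin K → ZMod 2 => Cmat (Fin K'))
  simp only [Finset.sum_const, Finset.card_univ, Fintype.card_pi, ZMod.card, Finset.prod_const,
    Fintype.card_fin, smul_eq_mul] at h2
  have h3 : (cx (blockDiagonal fun _ : Fin K → ZMod 2 => Cmat (Fin K')) : ℝ) ≤
      2 ^ K * cx (Cmat (Fin K')) := by exact_mod_cast h2
  rw [aC, div_le_div_iff₀ (by positivity) (by positivity), pow_add]
  have : (0 : ℝ) < 2 ^ K' := by positivity
  nlinarith

theorem aC_mul (m K : ℕ) : aC (m * K) ≤ m * aC K := by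
  induction m with
  | zero => simp [aC_zero]
  | succ m ih =>
    have := aC_add (m * K) K
    rw [Nat.succ_mul]; push_cast; linarith

theorem aC_le (K : ℕ) : aC K ≤ 4 * K := by
  have := aC_mul K 1
  have h1 := aC_one
  rw [mul_one] at this
  have : (0 : ℝ) ≤ K := by positivity
  nlinarith

/-- Convolution supported on a subgroup. -/
theorem cx_conv {Z Γ : Type*} [AddCommGroup Z] [Fintype Z] [DecidableEq Z] [AddCommGroup Γ]
    [Fintype Γ] [DecidableEq Γ] (ι : Z →+ Γ) (hι : Function.Injective ι) (c : Z → ℂ)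
    (N : Matrix Γ Γ ℂ) (hN : ∀ x y, N x y = ∑ d, if x - y = ι d then c d else 0) :
    cx N * Fintype.card Z ≤ Fintype.card Γ * cx (circulant c) := by
  classical
  have h := cx_le_sum (β := Γ ⧸ ι.range) (κ' := fun _ => Z) (ι' := fun _ => Z) N
    (fun _ => circulant c) (fun b => Pm fun z => b.out + ι z) (fun b i => Pm_mem _ _) ?_
  · have hc : Fintype.card Γ = Fintype.card (Γ ⧸ ι.range) * Fintype.card Z := by
      have h1 := AddSubgroup.card_eq_card_quotient_mul_card_addSubgroup ι.range
      have h2 : Nat.card ι.range = Nat.card Z := (Nat.card_congr (ι.ofInjective hι).toEquiv).symm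
      rw [h2] at h1
      simpa [Nat.card_eq_fintype_card] using h1
    simp only [Finset.sum_const, Finset.card_univ, smul_eq_mul] at h
    rw [hc]
    calc cx N * Fintype.card Z ≤ (Fintype.card (Γ ⧸ ι.range) * cx (circulant c)) *
          Fintype.card Z := Nat.mul_le_mul_right _ h
      _ = _ := by ring
  · intro x
    obtain ⟨⟨_, ⟨z, rfl⟩⟩, hz⟩ := QuotientAddGroup.mk_out_eq_add ι.range x
    refine ⟨QuotientAddGroup.mk x, -z, ?_⟩
    funext y
    rw [hN, Matrix.mul_apply]
    refine Fintype.sum_equiv (Equiv.subLeft (-z)) _ _ fun d => ?_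
    simp only [Equiv.subLeft_apply, circulant_apply, Pm, hz, sub_sub_cancel, mul_ite, mul_one,
      mul_zero, map_sub, map_neg]
    refine if_congr ?_ rfl rfl
    constructor
    · intro h; rw [← h]; abel
    · intro h; rw [h]; abel

end Vale.Agent.P344
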