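import Mathlib.Analysis.SpecialFunctions.Log.Base
import Mathlib.Analysis.SpecialFunctions.Pow.Real
import Mathlib.Analysis.SpecialFunctions.Trigonometric.Basic
import Mathlib.Data.Fin.Tuple.Basic
import Mathlib.Order.ConditionallyCompleteLattice.Basic
import Mathlib.Order.Lattice.Nat

/-! Linear circuits over the complex numbers and the gate count `L n` of the Fourier matrix. -/

namespace Vale.Agent.P344

/-- A gate that may read any of `k` previously computed values: `u + v`, `u - v` or `c * u`
for a fixed complex number `c`. -/
inductive Gate (k : ℕ) : Type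
  | add (u v : Fin k) : Gate k
  | sub (u v : Fin k) : Gate k
  | smul (c : ℂ) (u : Fin k) : Gate k

/-- The value a gate computes from the previously computed values `val`. -/
def Gate.eval {k : ℕ} (g : Gate k) (val : Fin k → ℂ) : ℂ :=
  match g with
  | .add u v => val u + val v
  | .sub u v => val u - val v
  | .smul c u => c * val u

/-- `Circuit n s`: a linear circuit with `n` inputs, the constant `0` and exactly `s` gates, listed
in a topological order; gate number `t` may read the `n` inputs, the constant `0` and the `t`
earlier gates. -/
inductive Circuit (n : ℕ) : ℕ → Type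
  | nil : Circuit n 0
  | snoc {s : ℕ} (C : Circuit n s) (g : Gate (n + 1 + s)) : Circuit n (s + 1)

/-- All values of a circuit on the input `x`: first `x 0, …, x (n-1)`, then `0`, then the values
of the gates in order. -/
def Circuit.values {n : ℕ} : {s : ℕ} → Circuit n s → (Fin n → ℂ) → Fin (n + 1 + s) → ℂ
  | _, .nil, x => Fin.snoc (α := fun _ => ℂ) x 0
  | _, .snoc C g, x => Fin.snoc (α := fun _ => ℂ) (C.values x) (g.eval (C.values x))

/-- Some linear circuit with exactly `s` gates has designated values equal to the coordinates of
`F_n x` for every `x`, where `F_n = (ζ ^ (j * k))` and `ζ = exp (2 π i / n)`. -/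
def ComputesDFT (n s : ℕ) : Prop :=
  ∃ (C : Circuit n s) (out : Fin n → Fin (n + 1 + s)), ∀ (x : Fin n → ℂ) (j : Fin n),
    C.values x (out j) =
      ∑ k : Fin n, Complex.exp (2 * (Real.pi : ℂ) * Complex.I / (n : ℂ)) ^ (j.val * k.val) * x k

/-- `L n`: the least number of gates of a linear circuit computing `F_n x`. -/
noncomputable def L (n : ℕ) : ℕ := sInf {s : ℕ | ComputesDFT n s}

end Vale.Agent.P344
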