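import Vale.Agent.P344.Recursion

/-! Layered exact-width factorizations and their synchronized tensor products. -/

namespace Vale.Agent.P344

open Matrix

section
variable {ι ι' : Type} [DecidableEq ι] [DecidableEq ι']

/-- Invertible monomial matrices. -/
def IsMono (M : Matrix ι ι ℂ) : Prop :=
  ∃ (π : Equiv.Perm ι) (d : ι → ℂ), (∀ i, d i ≠ 0) ∧ ∀ i j, M i j = if j = π i then d i else 0

/-- The layer attached to an involution. -/
noncomputable def Emat (σ : ι → ι) : Matrix ι ι ℂ :=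
  of fun i j => (if j = i then al else 0) + (if j = σ i then be else 0)

theorem isMono_one : IsMono (1 : Matrix ι ι ℂ) :=
  ⟨1, fun _ => 1, fun _ => one_ne_zero, fun i j => by simp [Matrix.one_apply, eq_comm]⟩

theorem isMono_diagonal {d : ι → ℂ} (hd : ∀ i, d i ≠ 0) : IsMono (diagonal d) :=
  ⟨1, d, hd, fun i j => by
    by_cases h : j = i
    · subst h; simp
    · simp [h, diagonal_apply_ne' _ h]⟩

theorem isMono_Pm (π : Equiv.Perm ι) : IsMono (Pm π) :=
  ⟨π, fun _ => 1, fun _ => one_ne_zero, fun _ _ => rfl⟩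

theorem Emat_id : Emat (id : ι → ι) = 1 := by
  ext i j
  by_cases h : j = i
  · subst h; simp [Emat, al_add_be]
  · simp [Emat, h, Matrix.one_apply_ne' h]

theorem IsMono.submatrix {M : Matrix ι ι ℂ} (h : IsMono M) (e : ι' ≃ ι) :
    IsMono (M.submatrix e e) := by
  obtain ⟨π, d, hd, h⟩ := h
  refine ⟨(e.trans π).trans e.symm, d ∘ e, fun i => hd _, fun i j => ?_⟩
  simp [h, Equiv.eq_symm_apply]

theorem IsMono.fromBlocks {M : Matrix ι ι ℂ} {M' : Matrix ι' ι' ℂ} (h : IsMono M)
    (h' : IsMono M') : IsMono (fromBlocks M 0 0 M') := by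
  obtain ⟨π, d, hd, h⟩ := h
  obtain ⟨π', d', hd', h'⟩ := h'
  refine ⟨Equiv.sumCongr π π', Sum.elim d d', ?_, ?_⟩
  · rintro (i | i)
    exacts [hd i, hd' i]
  · rintro (i | i) (j | j) <;> simp [h, h']

variable [Fintype ι] [Fintype ι']

theorem IsMono.mul {M M' : Matrix ι ι ℂ} (h : IsMono M) (h' : IsMono M') : IsMono (M * M') := by
  obtain ⟨π, d, hd, h⟩ := h
  obtain ⟨π', d', hd', h'⟩ := h'
  refine ⟨π.trans π', fun i => d i * d' (π i), fun i => mul_ne_zero (hd _) (hd' _), fun i j => ?_⟩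
  simp only [Matrix.mul_apply, h, ite_mul, zero_mul, Finset.sum_ite_eq', Finset.mem_univ, if_true]
  rw [h', mul_ite, mul_zero]; rfl

theorem IsMono.inv {M : Matrix ι ι ℂ} (h : IsMono M) : ∃ M', IsMono M' ∧ M' * M = 1 := by
  obtain ⟨π, d, hd, h⟩ := h
  refine ⟨of fun i j => if j = π.symm i then (d (π.symm i))⁻¹ else 0,
    ⟨π.symm, fun i => (d (π.symm i))⁻¹, fun i => inv_ne_zero (hd _), fun _ _ => rfl⟩, ?_⟩
  ext i j
  simp only [Matrix.mul_apply, of_apply, ite_mul, zero_mul, Finset.sum_ite_eq', Finset.mem_univ,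
    if_true]
  simp [h, Matrix.one_apply, hd, eq_comm]

theorem IsMono.cx_le {M : Matrix ι ι ℂ} (h : IsMono M) : cx M ≤ Fintype.card ι := by
  obtain ⟨π, d, -, h⟩ := h
  exact cx_scaled_rows M π d h

theorem Emat_mul_self {σ : ι → ι} (hσ : Function.Involutive σ) :
    Emat σ * Emat σ = Pm σ := by
  ext i j
  simp only [Matrix.mul_apply, Emat, of_apply, add_mul, ite_mul, zero_mul, Finset.sum_add_distrib,
    Finset.sum_ite_eq', Finset.mem_univ, if_true, hσ i, Pm]
  have h1 : al * al + be * be = 0 := by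
    simp only [al, be]; ring_nf; simp
  have h2 : al * be + be * al = 1 := by
    simp only [al, be]; ring_nf; simp; norm_num
  split_ifs
  · linear_combination h1 + h2
  · linear_combination h1
  · linear_combination h2
  · simp

/-- `Depth s A`: `A` is a product of `s` layers separated by monomial matrices. -/
def Depth : ℕ → Matrix ι ι ℂ → Prop
  | 0, A => IsMono A
  | s + 1, A => ∃ (M : Matrix ι ι ℂ) (σ : ι → ι) (B : Matrix ι ι ℂ),
      IsMono M ∧ Function.Involutive σ ∧ Depth s B ∧ A = M * Emat σ * B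

theorem Depth.mono_mul {s : ℕ} {M A : Matrix ι ι ℂ} (hM : IsMono M) (h : Depth s A) :
    Depth s (M * A) := by
  cases s with
  | zero => exact hM.mul h
  | succ s =>
    obtain ⟨M', σ, B, h1, h2, h3, rfl⟩ := h
    exact ⟨M * M', σ, B, hM.mul h1, h2, h3, by simp only [Matrix.mul_assoc]⟩

theorem Depth.mul {s t : ℕ} {A B : Matrix ι ι ℂ} (hA : Depth s A) (hB : Depth t B) :
    Depth (s + t) (A * B) := by
  induction s generalizing A with
  | zero => rw [zero_add]; exact hB.mono_mul hA
  | succ s ih =>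
    obtain ⟨M', σ, A', h1, h2, h3, rfl⟩ := hA
    rw [show s + 1 + t = (s + t) + 1 by omega]
    exact ⟨M', σ, A' * B, h1, h2, ih h3, by simp only [Matrix.mul_assoc]⟩

theorem Depth.mul_mono {s : ℕ} {M A : Matrix ι ι ℂ} (h : Depth s A) (hM : IsMono M) :
    Depth s (A * M) := h.mul (t := 0) hM

theorem Depth.le {s t : ℕ} {A : Matrix ι ι ℂ} (h : Depth s A) (hst : s ≤ t) : Depth t A := by
  induction hst with
  | refl => exact h
  | step _ ih => exact ⟨1, id, A, isMono_one, fun _ => rfl, ih, by simp [Emat_id]⟩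

theorem IsMono.depth {M : Matrix ι ι ℂ} (h : IsMono M) (s : ℕ) : Depth s M :=
  Depth.le (s := 0) h (Nat.zero_le _)

theorem depth_Emat {σ : ι → ι} (hσ : Function.Involutive σ) : Depth 1 (Emat σ) :=
  ⟨1, σ, 1, isMono_one, hσ, isMono_one, by simp⟩

theorem Depth.inv {s : ℕ} {A : Matrix ι ι ℂ} (h : Depth s A) : ∃ B, Depth s B ∧ B * A = 1 := by
  induction s generalizing A with
  | zero => exact IsMono.inv h
  | succ s ih =>
    obtain ⟨M, σ, B, h1, h2, h3, rfl⟩ := h
    obtain ⟨B', hB', e1⟩ := ih h3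
    obtain ⟨M', hM', e2⟩ := h1.inv
    have hP : IsMono (Pm σ) := isMono_Pm h2.toPerm
    have e3 : Pm σ * Pm σ = (1 : Matrix ι ι ℂ) := by
      ext i j
      simp only [Matrix.mul_apply, Pm, ite_mul, zero_mul, Finset.sum_ite_eq', Finset.mem_univ,
        if_true]
      simp [h2 i, Matrix.one_apply, eq_comm]
    refine ⟨B' * ((Pm σ * Emat σ) * M'), hB'.mul (((depth_Emat h2).mono_mul hP).mul_mono hM'), ?_⟩
    calc B' * ((Pm σ * Emat σ) * M') * (M * Emat σ * B)
        = B' * (Pm σ * (Emat σ * ((M' * M) * Emat σ)) * B) := by simp only [Matrix.mul_assoc]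
      _ = 1 := by rw [e2, Matrix.one_mul, Emat_mul_self h2, e3, Matrix.one_mul, e1]

theorem Depth.submatrix {s : ℕ} {A : Matrix ι ι ℂ} (h : Depth s A) (e : ι' ≃ ι) :
    Depth s (A.submatrix e e) := by
  induction s generalizing A with
  | zero => exact IsMono.submatrix h e
  | succ s ih =>
    obtain ⟨M, σ, B, h1, h2, h3, rfl⟩ := h
    refine ⟨M.submatrix e e, fun i => e.symm (σ (e i)), B.submatrix e e, h1.submatrix e,
      fun i => by simp [h2 _], ih h3, ?_⟩
    have : Emat (fun i => e.symm (σ (e i))) = (Emat σ).submatrix e e := by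
      ext i j; simp [Emat, Equiv.eq_symm_apply]
    rw [this, submatrix_mul_equiv, submatrix_mul_equiv]

theorem Depth.of_submatrix {s : ℕ} {A : Matrix ι ι ℂ} (e : ι' ≃ ι)
    (h : Depth s (A.submatrix e e)) : Depth s A := by
  simpa using h.submatrix e.symm

theorem Depth.submatrix₂ {s : ℕ} {A : Matrix ι ι ℂ} (h : Depth s A) (e f : ι' ≃ ι) :
    Depth s (A.submatrix e f) := by
  have : A.submatrix e f = Pm (e.trans f.symm) * A.submatrix f f := by
    ext i j; simp [Matrix.mul_apply, Pm]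
  rw [this]
  exact (h.submatrix f).mono_mul (isMono_Pm _)

theorem Depth.fromBlocks {s : ℕ} {A : Matrix ι ι ℂ} {A' : Matrix ι' ι' ℂ} (h : Depth s A)
    (h' : Depth s A') : Depth s (fromBlocks A 0 0 A') := by
  induction s generalizing A A' with
  | zero => exact IsMono.fromBlocks h h'
  | succ s ih =>
    obtain ⟨M, σ, B, h1, h2, h3, rfl⟩ := h
    obtain ⟨M', σ', B', h1', h2', h3', rfl⟩ := h'
    refine ⟨Matrix.fromBlocks M 0 0 M', Sum.map σ σ', Matrix.fromBlocks B 0 0 B',
      h1.fromBlocks h1', ?_, ih h3 h3', ?_⟩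
    · rintro (i | i) <;> simp [h2 _, h2' _]
    · have : Emat (Sum.map σ σ') = Matrix.fromBlocks (Emat σ) 0 0 (Emat σ') := by
        ext (i | i) (j | j) <;> simp [Emat]
      rw [this]; simp [fromBlocks_multiply]

theorem cx_Emat (σ : ι → ι) : cx (Emat σ) ≤ Fintype.card ι * 4 := by
  refine cx_le_of_rows _ _ fun i => ?_
  have h := Ext.lincomb (Finset.univ : Finset Bool) (fun b => if b then al else be)
    (fun b => (Pi.single (if b then i else σ i) 1 : ι → ℂ)) (zero_mem_base (ι := ι))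
    (fun b _ => single_mem_base _)
  have e : ∑ b : Bool, (if b then al else be) •
      (Pi.single (if b then i else σ i) 1 : ι → ℂ) = Emat σ i := by
    funext j; simp [Emat, Pi.single_apply]
  rw [e] at h
  simpa using h

theorem Depth.cx_le {s : ℕ} {A : Matrix ι ι ℂ} (h : Depth s A) :
    cx A ≤ Fintype.card ι * (5 * s + 1) := by
  induction s generalizing A with
  | zero => simpa using IsMono.cx_le h
  | succ s ih =>
    obtain ⟨M, σ, B, h1, h2, h3, rfl⟩ := h
    have a1 := cx_mul (M * Emat σ) B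
    have a2 := cx_mul M (Emat σ)
    have a3 := h1.cx_le
    have a4 := cx_Emat σ
    have a5 := ih h3
    nlinarith

end

end Vale.Agent.P344
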