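import Vale.Agent.P344.InPlace

/-! Radix-two FFT, chirp reduction, and exact-width batches of Fourier matrices. -/

namespace Vale.Agent.P344

open Matrix

/-- Vandermonde matrix in powers of `ω`. -/
noncomputable def vand (ω : ℂ) (n : ℕ) : Matrix (Fin n) (Fin n) ℂ :=
  of fun j k => ω ^ (j.val * k.val)

theorem depth_vand (e : ℕ) : ∀ ω : ℂ, IsPrimitiveRoot ω (2 ^ e) → Depth e (vand ω (2 ^ e)) := by
  induction e with
  | zero =>
    intro ω _
    have : vand ω (2 ^ 0) = 1 := by
      ext j k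
      have hj : j.val = 0 := by have := j.2; omega
      have hk : k.val = 0 := by have := k.2; omega
      have : j = k := Fin.ext (by omega)
      subst this; simp [vand]
    rw [this]; exact isMono_one
  | succ e ih =>
    intro ω hω
    have h2 : IsPrimitiveRoot (ω ^ 2) (2 ^ e) := hω.pow (by positivity) (by ring)
    have hm : ω ^ (2 ^ e) = -1 :=
      (hω.pow (by positivity) (by ring : 2 ^ (e + 1) = 2 ^ e * 2)).eq_neg_one_of_two_right
    have hω0 : ω ≠ 0 := hω.ne_zero (by positivity)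
    have hp : 2 ^ (e + 1) = 2 * 2 ^ e := by ring
    let r : Fin (2 ^ e) ⊕ Fin (2 ^ e) → Fin (2 ^ (e + 1)) :=
      Sum.elim (fun j => ⟨j.val, by have := j.2; omega⟩)
        (fun j => ⟨j.val + 2 ^ e, by have := j.2; omega⟩)
    let c : Fin (2 ^ e) ⊕ Fin (2 ^ e) → Fin (2 ^ (e + 1)) :=
      Sum.elim (fun j => ⟨2 * j.val, by have := j.2; omega⟩)
        (fun j => ⟨2 * j.val + 1, by have := j.2; omega⟩)
    have hr : Function.Bijective r := by
      refine (Fintype.bijective_iff_injective_and_card r).mpr ⟨?_, by simp; ring⟩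
      rintro (j | j) (k | k) h <;> simp only [r, Sum.elim_inl, Sum.elim_inr, Fin.mk.injEq] at h
      · rw [Fin.ext h]
      · have := j.2; omega
      · have := k.2; omega
      · rw [Fin.ext (show j.val = k.val by omega)]
    have hc : Function.Bijective c := by
      refine (Fintype.bijective_iff_injective_and_card c).mpr ⟨?_, by simp; ring⟩
      rintro (j | j) (k | k) h <;> simp only [c, Sum.elim_inl, Sum.elim_inr, Fin.mk.injEq] at h
      · rw [Fin.ext (show j.val = k.val by omega)]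
      · omega
      · omega
      · rw [Fin.ext (show j.val = k.val by omega)]
    have hd : IsMono (fromBlocks 1 0 0 (diagonal fun j : Fin (2 ^ e) => ω ^ j.val) :
        Matrix (Fin (2 ^ e) ⊕ Fin (2 ^ e)) (Fin (2 ^ e) ⊕ Fin (2 ^ e)) ℂ) :=
      isMono_one.fromBlocks (isMono_diagonal fun _ => pow_ne_zero _ hω0)
    have h := ((depth_butterfly.mul_mono hd).mul ((ih _ h2).fromBlocks (ih _ h2))).submatrix₂
      (Equiv.ofBijective r hr).symm (Equiv.ofBijective c hc).symm
    rw [add_comm 1 e] at h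
    convert h using 1
    have key : (vand ω (2 ^ (e + 1))).submatrix (Equiv.ofBijective r hr) (Equiv.ofBijective c hc) =
        b2 (Fin (2 ^ e)) 1 1 1 (-1) *
          fromBlocks 1 0 0 (diagonal fun j : Fin (2 ^ e) => ω ^ j.val) *
          fromBlocks (vand (ω ^ 2) (2 ^ e)) 0 0 (vand (ω ^ 2) (2 ^ e)) := by
      simp only [b2, fromBlocks_multiply, one_smul, Matrix.mul_one, Matrix.mul_zero, add_zero,
        zero_add, Matrix.one_mul, neg_smul, Matrix.neg_mul]
      ext (j | j) (k | k)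
      · simp only [submatrix_apply, Equiv.ofBijective_apply, r, c, vand, Sum.elim_inl, of_apply,
          fromBlocks_apply₁₁, ← pow_mul]
        congr 1; ring
      · simp only [submatrix_apply, Equiv.ofBijective_apply, r, c, vand, Sum.elim_inl,
          Sum.elim_inr, of_apply, fromBlocks_apply₁₂, diagonal_mul, ← pow_mul, ← pow_add]
        congr 1; ring
      · simp only [submatrix_apply, Equiv.ofBijective_apply, r, c, vand, Sum.elim_inl,
          Sum.elim_inr, of_apply, fromBlocks_apply₂₁, ← pow_mul]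
        rw [show (j.val + 2 ^ e) * (2 * k.val) = 2 * (j.val * k.val) + 2 ^ e * (2 * k.val) by ring,
          pow_add, pow_mul ω (2 ^ e), hm, pow_mul (-1 : ℂ)]
        simp
      · simp only [submatrix_apply, Equiv.ofBijective_apply, r, c, vand,
          Sum.elim_inr, of_apply, fromBlocks_apply₂₂, Matrix.neg_apply, diagonal_mul, ← pow_mul,
          ← pow_add]
        rw [show (j.val + 2 ^ e) * (2 * k.val + 1) =
            (j.val + 2 * (j.val * k.val)) + 2 ^ e * (2 * k.val + 1) by ring,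
          pow_add, pow_mul ω (2 ^ e), hm, pow_succ, pow_mul (-1 : ℂ)]
        simp
    rw [← key, submatrix_submatrix, Equiv.self_comp_symm, Equiv.self_comp_symm, submatrix_id_id]

theorem depth_FZ_pow (e : ℕ) : Depth e (FZ (2 ^ e)) := by
  have h := depth_vand e _ (Complex.isPrimitiveRoot_exp (2 ^ e) (by positivity))
  let f : ZMod (2 ^ e) → Fin (2 ^ e) := fun j => ⟨j.val, ZMod.val_lt j⟩
  have hf : Function.Bijective f := by
    refine (Fintype.bijective_iff_injective_and_card f).mpr ⟨fun j k hjk => ?_, by simp⟩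
    exact ZMod.val_injective _ (congrArg Fin.val hjk)
  convert h.submatrix (Equiv.ofBijective f hf) using 1
  ext j k
  rw [FZ_apply]; rfl

section
variable {Γ : Type} [AddCommGroup Γ] [Fintype Γ] [DecidableEq Γ]

theorem Finv_mono (F : Matrix Γ Γ ℂ) : ∃ M, IsMono M ∧ Finv F = M * F := by
  refine ⟨Matrix.of fun x y : Γ => if y = -x then (Fintype.card Γ : ℂ)⁻¹ else 0,
    ⟨Equiv.neg Γ, fun _ => (Fintype.card Γ : ℂ)⁻¹, fun _ => inv_ne_zero card_ne_zero',
      fun _ _ => rfl⟩, ?_⟩
  ext x y; simp [Finv, Matrix.mul_apply]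

theorem depth_Mu {F : Matrix Γ Γ ℂ} {s : ℕ} (h : Depth s F) (f : Γ → ℂ) (hf : ∀ ξ, f ξ ≠ 0) :
    Depth (s + s) (Mu F f) := by
  obtain ⟨M, hM, e⟩ := Finv_mono F
  rw [Mu, e]
  exact ((h.mono_mul hM).mul_mono (isMono_diagonal hf)).mul h

omit [Fintype Γ] [DecidableEq Γ] in
theorem exists_circ (φ : ℤ →+ Γ) (n : ℕ) (hφ : ∀ d : ℤ, φ d = 0 → |d| < 2 * n → d = 0)
    (b : ℤ → ℂ) : ∃ c : Γ → ℂ, ∀ d : ℤ, |d| < n → c (φ d) = b d := by
  classical
  refine ⟨fun g => if h : ∃ d : ℤ, |d| < n ∧ φ d = g then b h.choose else 0, fun d hd => ?_⟩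
  have h : ∃ d' : ℤ, |d'| < n ∧ φ d' = φ d := ⟨d, hd, rfl⟩
  simp only [dif_pos h]
  congr 1
  have h1 := h.choose_spec
  have h2 := hφ (h.choose - d) (by rw [map_sub, h1.2, sub_self]) (by
    have := abs_sub (h.choose) d
    linarith [h1.1])
  linarith

end

noncomputable def chirp (n : ℕ) (d : ℤ) : ℂ :=
  Complex.exp ((Real.pi : ℂ) * Complex.I * (d : ℂ) ^ 2 / (n : ℂ))

theorem chirp_ne_zero (n : ℕ) (d : ℤ) : chirp n d ≠ 0 := Complex.exp_ne_zero _

theorem bluestein (n j k : ℕ) :
    Complex.exp (2 * (Real.pi : ℂ) * Complex.I / (n : ℂ)) ^ (j * k) =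
      chirp n j * (chirp n ((j : ℤ) - k))⁻¹ * chirp n k := by
  simp only [chirp]
  rw [← Complex.exp_neg, ← Complex.exp_add, ← Complex.exp_add, ← Complex.exp_nat_mul]
  congr 1; push_cast; ring

theorem zmod_inj (M n : ℕ) (h : 2 * n ≤ M) (d : ℤ) (hd : Int.castAddHom (ZMod M) d = 0)
    (hlt : |d| < 2 * n) : d = 0 := by
  have : (M : ℤ) ∣ d := (ZMod.intCast_zmod_eq_zero_iff_dvd d M).mp hd
  refine Int.eq_zero_of_abs_lt_dvd this ?_
  have : (2 * n : ℤ) ≤ M := by exact_mod_cast h
  linarith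

theorem shearD_FZ (q e : ℕ) [NeZero q] (h : 2 * q ≤ 2 ^ e) :
    ShearD (8 * e + 12) (FZ q) (ZMod (2 ^ e)) := by
  set φ := Int.castAddHom (ZMod (2 ^ e)) with hφdef
  have hφ := zmod_inj (2 ^ e) q h
  obtain ⟨c, hc⟩ := exists_circ φ q hφ (fun d => (chirp q d)⁻¹)
  have hF := isFourier_FZ (2 ^ e)
  set f : ZMod (2 ^ e) → ℂ := fun ξ => ∑ d, c (d - φ q) * FZ (2 ^ e) ξ d with hf
  obtain ⟨l, hl⟩ := Infinite.exists_notMem_finset (Finset.univ.image fun ξ => -f ξ)
  have hfl : ∀ ξ, f ξ + l ≠ 0 := fun ξ h0 => hl (by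
    simp only [Finset.mem_image, Finset.mem_univ, true_and]
    exact ⟨ξ, by linear_combination -h0⟩)
  have hG := depth_Mu (depth_FZ_pow e) _ hfl
  rw [Mu_add_const hF, ← hF.circulant_eq] at hG
  have hlt : ∀ x : ZMod q, (x.val : ℤ) < q := fun x => by exact_mod_cast ZMod.val_lt x
  have hge : ∀ x : ZMod q, (0 : ℤ) ≤ x.val := fun x => by positivity
  have hinj : ∀ x y : ZMod q, φ x.val = φ y.val → x = y := fun x y hxy => by
    have := hφ (x.val - y.val) (by rw [map_sub, hxy, sub_self]) (by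
      have := hlt x; have := hlt y; have := hge x; have := hge y
      rw [abs_lt]; constructor <;> linarith)
    exact ZMod.val_injective _ (by omega)
  have h1 := shearD_of_sub hG (fun x : ZMod q => φ x.val) (fun y : ZMod q => φ y.val + φ q)
    (fun x y hxy => hinj x y hxy) (fun x y hxy => hinj x y (add_right_cancel hxy))
  have h2 := h1.conj (isMono_diagonal fun x : ZMod q => chirp_ne_zero q x.val)
    (isMono_diagonal fun x : ZMod q => chirp_ne_zero q x.val)
  rw [show 8 * e + 12 = 4 * (e + e) + 12 by ring]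
  convert h2 using 1
  ext y x
  have hne : φ y.val + φ q ≠ φ x.val := fun h0 => by
    have := hφ (y.val + q - x.val) (by rw [map_sub, map_add, h0, sub_self]) (by
      have := hlt x; have := hlt y; have := hge x; have := hge y
      rw [abs_lt]; constructor <;> linarith)
    have := hlt x; have := hge y
    omega
  have e1 : φ y.val + φ q - φ x.val - φ q = φ (y.val - x.val) := by rw [map_sub]; abel
  rw [FZ_apply, bluestein, mul_diagonal, diagonal_mul, submatrix_apply, Matrix.add_apply,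
    Matrix.smul_apply, Matrix.one_apply_ne hne, circulant_apply, e1, hc _ (by
      have := hlt x; have := hlt y; have := hge x; have := hge y
      rw [abs_lt]; constructor <;> linarith)]
  simp

theorem depth_FZ_batch (q l : ℕ) [NeZero q] (h : q ≤ 2 ^ l) :
    Depth (96 * l + 240) (blockDiagonal fun _ : Fin 4 ⊕ Fin 4 => FZ q) := by
  have hq : 0 < q := NeZero.pos q
  have h1 : 2 * q ≤ 2 ^ Nat.clog 2 (2 * q) := Nat.le_pow_clog (by norm_num) _
  have h2 : 2 ^ Nat.clog 2 (2 * q) ≤ 4 * q := by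
    have := Nat.pow_pred_clog_lt_self (b := 2) (by norm_num) (x := 2 * q) (by omega)
    have h3 : 0 < Nat.clog 2 (2 * q) := Nat.clog_pos (by norm_num) (by omega)
    obtain ⟨k, hk⟩ : ∃ k, Nat.clog 2 (2 * q) = k + 1 := ⟨_, (Nat.succ_pred_eq_of_pos h3).symm⟩
    rw [hk] at this ⊢
    simp only [Nat.pred_succ] at this
    rw [pow_succ]; omega
  have h3 : Nat.clog 2 (2 * q) ≤ l + 1 :=
    (Nat.clog_le_iff_le_pow (by norm_num)).mpr (by rw [pow_succ]; omega)
  obtain ⟨M, hM, e⟩ := Finv_mono (FZ q)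
  have h4 := (shearD_FZ q _ h1).pair hM (by rw [← e, (isFourier_FZ q).Finv_mul])
  have h5 := depth_batch (β := Fin 4) h4 (by
    simp only [ZMod.card, Fintype.card_sum, Fintype.card_fin]; omega)
  let σ : ZMod q × (Fin 4 ⊕ Fin 4) ≃ (ZMod q ⊕ ZMod q) × Fin 4 :=
    (Equiv.prodSumDistrib _ _ _).trans (Equiv.sumProdDistrib _ _ _).symm
  have h6 := (h5.submatrix σ).le (t := 96 * l + 240) (by rw [Fintype.card_fin]; omega)
  convert h6 using 1
  ext ⟨x, b | b⟩ ⟨y, b' | b'⟩ <;> simp [σ, blockDiagonal_apply]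

end Vale.Agent.P344
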