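import Vale.Agent.P344.Global

/-! Asymptotics. -/

namespace Vale.Agent.P344

theorem L_power_large : ∃ C : ℝ, 0 < C ∧ ∀ n : ℕ, 64 ≤ n →
    (L n : ℝ) ≤ C * n * Real.logb 2 n ^ (1 - 1 / (12 * 10 ^ 9) : ℝ) := by
  obtain ⟨A, hA0, hA⟩ := aC_power
  refine ⟨2 + 4 * (76 + 2 * (432 * 48 * (A + 1))), by positivity, fun n hn => ?_⟩
  obtain ⟨r, e, l, q, hr, h0, hodd, hcop, hl, he, hn1, hn2, he2, hl2, hL1, hL2⟩ :=
    exists_params n hn
  have hgam0 : 0 < gam := by unfold gam; norm_num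
  have hr1 : (1 : ℝ) ≤ r := by exact_mod_cast hr
  have h1 := cx_dft_structural n r e l q h0 hodd hcop hl he hn1 (A * (r : ℝ) ^ gam)
    (fun k hk => (hA k).trans (by
      have : (k : ℝ) ≤ r := by exact_mod_cast hk
      gcongr))
  have hn0 : (0 : ℝ) < n := by exact_mod_cast (show 0 < n by omega)
  set x := Real.logb 2 n with hx
  set θ : ℝ := 1 - 1 / (12 * 10 ^ 9) with hθ
  have hx1 : (Nat.log 2 n : ℝ) ≤ x := by
    rw [hx, Real.le_logb_iff_rpow_le (by norm_num) hn0, Real.rpow_natCast]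
    exact_mod_cast Nat.pow_log_le_self 2 (by omega : n ≠ 0)
  have hx2 : x ≤ (Nat.log 2 n : ℝ) + 1 := by
    rw [hx, Real.logb_le_iff_le_rpow (by norm_num) hn0]
    have : n < 2 ^ (Nat.log 2 n + 1) := Nat.lt_pow_succ_log_self (by norm_num) n
    have h2 : (n : ℝ) ≤ 2 ^ (Nat.log 2 n + 1) := by exact_mod_cast this.le
    rw [← Real.rpow_natCast] at h2
    exact_mod_cast h2
  have hL1' : 6 * (r : ℝ) ^ 3 ≤ x := le_trans (by exact_mod_cast hL1) hx1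
  have hL2' : x ≤ 48 * (r : ℝ) ^ 3 := hx2.trans (by exact_mod_cast hL2)
  have hl2' : (l : ℝ) * r ≤ 2 * x := by
    have : (l : ℝ) * r ≤ 2 * (Nat.log 2 n : ℝ) := by exact_mod_cast hl2
    linarith
  have hr3 : (1 : ℝ) ≤ (r : ℝ) ^ 3 := one_le_pow₀ hr1
  have hxone : 1 ≤ x := by linarith
  have hxθ : 1 ≤ x ^ θ := Real.one_le_rpow hxone (by rw [hθ]; norm_num)
  have hr2 : (r : ℝ) ^ 2 ≤ x ^ θ := by
    calc (r : ℝ) ^ 2 = ((r : ℝ) ^ 3) ^ (2 / 3 : ℝ) := by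
          rw [← Real.rpow_natCast (r : ℝ) 3, ← Real.rpow_mul (by linarith),
            ← Real.rpow_natCast (r : ℝ) 2]
          norm_num
      _ ≤ x ^ (2 / 3 : ℝ) := Real.rpow_le_rpow (by positivity) (by linarith) (by norm_num)
      _ ≤ x ^ θ := Real.rpow_le_rpow_of_exponent_le hxone (by rw [hθ]; norm_num)
  have hrg : (1 : ℝ) ≤ (r : ℝ) ^ gam := Real.one_le_rpow hr1 hgam0.le
  have hkey : x * (r : ℝ) ^ gam ≤ 48 * x ^ θ * r := by
    obtain ⟨δ, hδ0, hδ1, hδ2, hδ3⟩ : ∃ δ : ℝ, 0 ≤ δ ∧ δ ≤ 1 ∧ θ + δ = 1 ∧ 3 * δ + gam = 1 :=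
      ⟨1 / (12 * 10 ^ 9), by norm_num, by norm_num, by rw [hθ]; norm_num, by
        rw [gam]; norm_num⟩
    have e1 : x ^ δ ≤ 48 * (r : ℝ) ^ (3 * δ) := by
      calc x ^ δ ≤ (48 * (r : ℝ) ^ 3) ^ δ := Real.rpow_le_rpow (by linarith) hL2' hδ0
        _ = 48 ^ δ * (r : ℝ) ^ (3 * δ) := by
            rw [Real.mul_rpow (by norm_num) (by positivity), ← Real.rpow_natCast (r : ℝ) 3,
              ← Real.rpow_mul (by linarith)]
            norm_num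
        _ ≤ 48 * (r : ℝ) ^ (3 * δ) := by
            gcongr
            exact Real.rpow_le_self_of_one_le (by norm_num) hδ1
    have e2 : x = x ^ θ * x ^ δ := by
      rw [← Real.rpow_add (by linarith), hδ2, Real.rpow_one]
    have e3 : (r : ℝ) = (r : ℝ) ^ (3 * δ) * (r : ℝ) ^ gam := by
      rw [← Real.rpow_add (by linarith), hδ3, Real.rpow_one]
    calc x * (r : ℝ) ^ gam = x ^ θ * x ^ δ * (r : ℝ) ^ gam := by rw [← e2]
      _ ≤ x ^ θ * (48 * (r : ℝ) ^ (3 * δ)) * (r : ℝ) ^ gam := by gcongr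
      _ = 48 * x ^ θ * ((r : ℝ) ^ (3 * δ) * (r : ℝ) ^ gam) := by ring
      _ = _ := by rw [← e3]
  have hl3 : (96 * (l : ℝ) + 240) * r ≤ 432 * x := by
    have : (r : ℝ) ≤ (r : ℝ) ^ 3 := le_self_pow₀ hr1 (by norm_num)
    nlinarith
  have h2 : (96 * (l : ℝ) + 240) * (A * (r : ℝ) ^ gam + 1) ≤ 432 * 48 * (A + 1) * x ^ θ := by
    refine le_of_mul_le_mul_right ?_ (show (0 : ℝ) < r by linarith)
    calc (96 * (l : ℝ) + 240) * (A * (r : ℝ) ^ gam + 1) * r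
        = ((96 * (l : ℝ) + 240) * r) * (A * (r : ℝ) ^ gam + 1) := by ring
      _ ≤ (432 * x) * ((A + 1) * (r : ℝ) ^ gam) := by gcongr; linarith
      _ = 432 * (A + 1) * (x * (r : ℝ) ^ gam) := by ring
      _ ≤ 432 * (A + 1) * (48 * x ^ θ * r) := by gcongr
      _ = _ := by ring
  have he2' : (e : ℝ) ≤ 7 * (r : ℝ) ^ 2 := by exact_mod_cast he2
  have hn2' : (((∏ i, q i) * 2 ^ e : ℕ) : ℝ) ≤ 4 * n := by exact_mod_cast hn2
  have h3 : (L n : ℝ) ≤ cx (dftM n) := by exact_mod_cast L_le_cx n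
  have h4 : 10 * (e : ℝ) + 6 + 2 * ((96 * l + 240) * (A * (r : ℝ) ^ gam + 1)) ≤
      (76 + 2 * (432 * 48 * (A + 1))) * x ^ θ := by linarith
  calc (L n : ℝ) ≤ 2 * n + (((∏ i, q i) * 2 ^ e : ℕ) : ℝ) *
        (10 * e + 6 + 2 * ((96 * l + 240) * (A * (r : ℝ) ^ gam + 1))) := h3.trans h1
    _ ≤ 2 * n * x ^ θ + 4 * n * ((76 + 2 * (432 * 48 * (A + 1))) * x ^ θ) := by
        refine add_le_add (le_mul_of_one_le_right (by positivity) hxθ) ?_
        gcongr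
    _ = _ := by ring

theorem L_power : ∃ C : ℝ, 0 < C ∧ ∀ n : ℕ, 2 ≤ n →
    (L n : ℝ) ≤ C * n * Real.logb 2 n ^ (1 - 1 / (12 * 10 ^ 9) : ℝ) := by
  obtain ⟨C, hC0, hC⟩ := L_power_large
  refine ⟨C + 128, by positivity, fun n hn => ?_⟩
  have hn2 : (2 : ℝ) ≤ n := by exact_mod_cast hn
  have hx : 1 ≤ Real.logb 2 n := by
    rw [Real.le_logb_iff_rpow_le (by norm_num) (by linarith)]; simpa using hn2
  have hxθ : 1 ≤ Real.logb 2 n ^ (1 - 1 / (12 * 10 ^ 9) : ℝ) :=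
    Real.one_le_rpow hx (by norm_num)
  by_cases h : 64 ≤ n
  · refine (hC n h).trans ?_
    gcongr; linarith
  · have h1 := (L_le_cx n).trans (cx_le_trivial (dftM n))
    rw [Fintype.card_fin] at h1
    have h2 : L n ≤ 128 * n := by nlinarith
    have h3 : (L n : ℝ) ≤ 128 * n := by exact_mod_cast h2
    calc (L n : ℝ) ≤ 128 * n * 1 := by linarith
      _ ≤ _ := by gcongr; linarith

theorem not_lower_bound :
    ¬ ∃ c : ℝ, 0 < c ∧ ∃ N : ℕ, ∀ n : ℕ, N ≤ n → c * n * Real.logb 2 n ≤ L n := by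
  rintro ⟨c, hc, N, hN⟩
  obtain ⟨C, hC0, hC⟩ := L_power
  have ht : Filter.Tendsto (fun n : ℕ => Real.logb 2 n ^ (1 / (12 * 10 ^ 9) : ℝ))
      Filter.atTop Filter.atTop :=
    (tendsto_rpow_atTop (by norm_num)).comp
      ((Real.tendsto_logb_atTop (by norm_num)).comp tendsto_natCast_atTop_atTop)
  obtain ⟨n, hn1, hn2, hn3⟩ := ((ht.eventually_gt_atTop (C / c)).and
    ((Filter.eventually_ge_atTop N).and (Filter.eventually_ge_atTop 2))).exists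
  have h1 := (hN n hn2).trans (hC n hn3)
  have hn2' : (2 : ℝ) ≤ n := by exact_mod_cast hn3
  have hx : 1 ≤ Real.logb 2 n := by
    rw [Real.le_logb_iff_rpow_le (by norm_num) (by linarith)]; simpa using hn2'
  have e2 : Real.logb 2 n = Real.logb 2 n ^ (1 - 1 / (12 * 10 ^ 9) : ℝ) *
      Real.logb 2 n ^ (1 / (12 * 10 ^ 9) : ℝ) := by
    rw [← Real.rpow_add (by linarith)]; norm_num
  have hp : 0 < Real.logb 2 n ^ (1 - 1 / (12 * 10 ^ 9) : ℝ) := Real.rpow_pos_of_pos (by linarith) _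
  rw [div_lt_iff₀ hc] at hn1
  have h2 : c * n * Real.logb 2 n = n * Real.logb 2 n ^ (1 - 1 / (12 * 10 ^ 9) : ℝ) *
      (Real.logb 2 n ^ (1 / (12 * 10 ^ 9) : ℝ) * c) := by
    conv_lhs => rw [e2]
    ring
  have h3 : 0 < n * Real.logb 2 n ^ (1 - 1 / (12 * 10 ^ 9) : ℝ) := by positivity
  have h4 := mul_lt_mul_of_pos_left hn1 h3
  linarith

end Vale.Agent.P344
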