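import Vale.Agent.P344.Ext

/-! Character tables of finite abelian groups and Fourier multipliers. -/

namespace Vale.Agent.P344

open Matrix
open scoped Kronecker

section pi
variable {J : Type*} [Fintype J] {κ ι ι' : J → Type*}

/-- Tensor product of a family of matrices. -/
noncomputable def piMat (A : ∀ j, Matrix (κ j) (ι j) ℂ) : Matrix (∀ j, κ j) (∀ j, ι j) ℂ :=
  fun x y => ∏ j, A j (x j) (y j)

theorem piMat_mul [DecidableEq J] [∀ j, Fintype (ι j)] (A : ∀ j, Matrix (κ j) (ι j) ℂ)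
    (B : ∀ j, Matrix (ι j) (ι' j) ℂ) : piMat (fun j => A j * B j) = piMat A * piMat B := by
  ext x y
  simp only [piMat, Matrix.mul_apply]
  rw [Finset.prod_univ_sum]
  simp [Finset.prod_mul_distrib]

end pi

section
variable {Γ : Type*} [AddCommGroup Γ] [Fintype Γ] [DecidableEq Γ]

/-- A symmetric character table. -/
structure IsFourier (F : Matrix Γ Γ ℂ) : Prop where
  symm : ∀ x y, F x y = F y x
  zero : ∀ ξ, F ξ 0 = 1
  add : ∀ ξ x y, F ξ (x + y) = F ξ x * F ξ y
  orth : ∀ x, ∑ ξ, F ξ x = if x = 0 then (Fintype.card Γ : ℂ) else 0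

/-- The inverse transform. -/
noncomputable def Finv (F : Matrix Γ Γ ℂ) : Matrix Γ Γ ℂ :=
  fun x ξ => (Fintype.card Γ : ℂ)⁻¹ * F (-x) ξ

/-- The Fourier multiplier operator with symbol `f`. -/
noncomputable def Mu (F : Matrix Γ Γ ℂ) (f : Γ → ℂ) : Matrix Γ Γ ℂ := Finv F * diagonal f * F

omit [DecidableEq Γ] in
theorem card_ne_zero' : (Fintype.card Γ : ℂ) ≠ 0 := by
  have : Nonempty Γ := ⟨0⟩
  exact_mod_cast Fintype.card_ne_zero

variable {F : Matrix Γ Γ ℂ}

theorem IsFourier.Mu_char (hF : IsFourier F) (g x y : Γ) :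
    Mu F (fun ξ => F ξ g) x y = if x - y = g then 1 else 0 := by
  have : Mu F (fun ξ => F ξ g) x y = (Fintype.card Γ : ℂ)⁻¹ * ∑ ξ, F ξ (-x + g + y) := by
    simp only [Mu, Matrix.mul_apply, Finv, Finset.mul_sum]
    refine Finset.sum_congr rfl fun ξ _ => ?_
    simp only [diagonal_apply, mul_ite, mul_zero, Finset.sum_ite_eq', Finset.mem_univ, if_true]
    rw [hF.add, hF.add, hF.symm (-x) ξ]; ring
  rw [this, hF.orth]
  have e : (-x + g + y = 0) ↔ (x - y = g) := by
    constructor
    · intro h; have : x - y - g = -(-x + g + y) := by abel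
      rw [h, neg_zero] at this; exact sub_eq_zero.mp this
    · intro h; rw [← h]; abel
  by_cases h : x - y = g
  · rw [if_pos (e.mpr h), if_pos h, inv_mul_cancel₀ card_ne_zero']
  · rw [if_neg (fun h' => h (e.mp h')), if_neg h, mul_zero]

theorem IsFourier.Mu_one (hF : IsFourier F) : Mu F (fun _ => 1) = 1 := by
  ext x y
  have := hF.Mu_char 0 x y
  simp only [hF.zero] at this
  rw [this, Matrix.one_apply]
  simp [sub_eq_zero]

theorem IsFourier.Finv_mul (hF : IsFourier F) : Finv F * F = 1 := by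
  have := hF.Mu_one
  simpa [Mu] using this

theorem IsFourier.mul_Finv (hF : IsFourier F) : F * Finv F = 1 :=
  mul_eq_one_comm.mp hF.Finv_mul

theorem IsFourier.Mu_mul (hF : IsFourier F) (f g : Γ → ℂ) :
    Mu F (fun ξ => f ξ * g ξ) = Mu F f * Mu F g := by
  simp only [Mu]
  rw [← diagonal_mul_diagonal]
  calc Finv F * (diagonal f * diagonal g) * F
      = Finv F * diagonal f * (F * Finv F) * diagonal g * F := by
        rw [hF.mul_Finv]; simp only [Matrix.mul_assoc, Matrix.mul_one]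
    _ = _ := by simp only [Matrix.mul_assoc]

theorem Mu_sum {Z : Type*} (t : Finset Z) (c : Z → ℂ) (f : Z → Γ → ℂ) :
    Mu F (fun ξ => ∑ d ∈ t, c d * f d ξ) = ∑ d ∈ t, c d • Mu F (f d) := by
  have : diagonal (fun ξ => ∑ d ∈ t, c d * f d ξ) = ∑ d ∈ t, c d • diagonal (f d) := by
    ext a b
    by_cases h : a = b
    · subst h; simp [Matrix.sum_apply]
    · simp [Matrix.sum_apply, diagonal_apply_ne _ h]
  simp only [Mu, this, Matrix.mul_sum, Matrix.sum_mul, Matrix.mul_smul, Matrix.smul_mul]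

theorem IsFourier.Mu_chars (hF : IsFourier F) {Z : Type*} [Fintype Z] (c : Z → ℂ) (g : Z → Γ)
    (x y : Γ) :
    Mu F (fun ξ => ∑ d, c d * F ξ (g d)) x y = ∑ d, if x - y = g d then c d else 0 := by
  rw [Mu_sum Finset.univ c (fun d ξ => F ξ (g d))]
  simp only [Matrix.sum_apply, Matrix.smul_apply, hF.Mu_char, smul_eq_mul, mul_ite, mul_one,
    mul_zero]

theorem IsFourier.circulant_eq (hF : IsFourier F) (c : Γ → ℂ) :
    circulant c = Mu F (fun ξ => ∑ d, c d * F ξ d) := by
  ext x y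
  rw [hF.Mu_chars c (fun d => d)]
  simp [circulant_apply]

theorem Mu_add_const (hF : IsFourier F) (f : Γ → ℂ) (l : ℂ) :
    Mu F (fun ξ => f ξ + l) = Mu F f + l • 1 := by
  have : diagonal (fun ξ => f ξ + l) = diagonal f + l • 1 := by
    ext a b
    by_cases h : a = b
    · subst h; simp
    · simp [diagonal_apply_ne _ h, Matrix.one_apply_ne h]
  simp only [Mu, this, Matrix.mul_add, Matrix.add_mul, Matrix.mul_smul, Matrix.smul_mul,
    Matrix.mul_one, hF.Finv_mul]

theorem IsFourier.sum_right (hF : IsFourier F) {Z : Type*} (t : Finset Z) (g : Z → Γ) (ξ : Γ) :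
    F ξ (∑ d ∈ t, g d) = ∏ d ∈ t, F ξ (g d) := by
  classical
  induction t using Finset.induction_on with
  | empty => simp [hF.zero]
  | insert b t hb ih => rw [Finset.sum_insert hb, Finset.prod_insert hb, hF.add, ih]

theorem cx_Finv (F : Matrix Γ Γ ℂ) : cx (Finv F) ≤ Fintype.card Γ + cx F := by
  have e : Finv F = (Matrix.of fun x y : Γ => if y = -x then (Fintype.card Γ : ℂ)⁻¹ else 0)
      * F := by
    ext x y; simp [Finv, Matrix.mul_apply]
  rw [e]
  exact (cx_mul _ _).trans
    (Nat.add_le_add_right (cx_scaled_rows _ (fun x => -x) _ fun _ _ => rfl) _)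

theorem cx_Mu (F : Matrix Γ Γ ℂ) (f : Γ → ℂ) : cx (Mu F f) ≤ 2 * Fintype.card Γ + 2 * cx F := by
  have h1 := cx_mul (Finv F * diagonal f) F
  have h2 := cx_mul (Finv F) (diagonal f)
  have h3 := cx_Finv F
  have h4 := cx_diagonal f
  simp only [Mu]; omega

end

theorem IsFourier.pi {J : Type*} [Fintype J] [DecidableEq J] {Γ : J → Type*}
    [∀ j, AddCommGroup (Γ j)] [∀ j, Fintype (Γ j)] [∀ j, DecidableEq (Γ j)]
    {F : ∀ j, Matrix (Γ j) (Γ j) ℂ} (hF : ∀ j, IsFourier (F j)) : IsFourier (piMat F) where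
  symm x y := Finset.prod_congr rfl fun j _ => (hF j).symm _ _
  zero ξ := by simp [piMat, (hF _).zero]
  add ξ x y := by simp [piMat, (hF _).add, Finset.prod_mul_distrib]
  orth x := by
    simp only [piMat]
    have := Finset.prod_univ_sum (fun j => (Finset.univ : Finset (Γ j)))
      (fun j ξ => F j ξ (x j))
    rw [Fintype.piFinset_univ] at this
    rw [← this]
    simp only [(hF _).orth]
    by_cases hx : x = 0
    · subst hx; simp
    · rw [if_neg hx]
      obtain ⟨j, hj⟩ : ∃ j, x j ≠ 0 := by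
        by_contra h; push Not at h; exact hx (funext h)
      exact Finset.prod_eq_zero (Finset.mem_univ j) (if_neg hj)

theorem IsFourier.kron {Γ Γ' : Type*} [AddCommGroup Γ] [Fintype Γ] [DecidableEq Γ]
    [AddCommGroup Γ'] [Fintype Γ'] [DecidableEq Γ'] {F : Matrix Γ Γ ℂ} {F' : Matrix Γ' Γ' ℂ}
    (hF : IsFourier F) (hF' : IsFourier F') : IsFourier (F ⊗ₖ F') where
  symm x y := by simp only [kroneckerMap_apply]; rw [hF.symm, hF'.symm]
  zero ξ := by simp [kroneckerMap_apply, hF.zero, hF'.zero]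
  add ξ x y := by simp only [kroneckerMap_apply, Prod.fst_add, Prod.snd_add, hF.add, hF'.add]; ring
  orth x := by
    simp only [kroneckerMap_apply]
    rw [Fintype.sum_prod_type]
    dsimp only
    rw [← Finset.sum_mul_sum, hF.orth, hF'.orth]
    obtain ⟨a, b⟩ := x
    by_cases ha : a = 0 <;> by_cases hb : b = 0 <;> simp [ha, hb]

/-- The Fourier matrix of `ZMod q`. -/
noncomputable def FZ (q : ℕ) [NeZero q] : Matrix (ZMod q) (ZMod q) ℂ :=
  fun j k => ZMod.stdAddChar (j * k)

theorem isFourier_FZ (q : ℕ) [NeZero q] : IsFourier (FZ q) where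
  symm x y := by simp only [FZ, mul_comm]
  zero ξ := by simp [FZ]
  add ξ x y := by simp only [FZ, mul_add, AddChar.map_add_eq_mul]
  orth x := by
    simp only [FZ]
    rw [AddChar.sum_mulShift x (ZMod.isPrimitive_stdAddChar q)]
    split_ifs <;> simp

theorem FZ_apply (q : ℕ) [NeZero q] (j k : ZMod q) :
    FZ q j k = Complex.exp (2 * (Real.pi : ℂ) * Complex.I / (q : ℂ)) ^ (j.val * k.val) := by
  have e : j * k = (((j.val * k.val : ℕ) : ℤ) : ZMod q) := by simp
  rw [FZ, e, ZMod.stdAddChar_coe, ← Complex.exp_nat_mul]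
  congr 1
  push_cast; ring

end Vale.Agent.P344
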