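import Vale.Agent.P344.FFT
import Vale.Agent.P344.Bridge

/-! The Fourier transform of every length. -/

namespace Vale.Agent.P344

open Matrix
open scoped Kronecker

theorem cx_bd_prod {ι β γ δ : Type} [Fintype ι] [DecidableEq ι] [Fintype β] [DecidableEq β]
    [Fintype γ] [DecidableEq γ] [Fintype δ] [DecidableEq δ] (e : δ ≃ β × γ) (A : Matrix ι ι ℂ) :
    cx (blockDiagonal fun _ : δ => A) ≤ Fintype.card γ * cx (blockDiagonal fun _ : β => A) := by
  let σ : ι × δ → (ι × β) × γ := fun p => ((p.1, (e p.2).1), (e p.2).2)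
  have hσ : Function.Injective σ := by
    rintro ⟨i, b⟩ ⟨i', b'⟩ h
    simp only [σ, Prod.mk.injEq] at h
    rw [h.1.1, e.injective (Prod.ext h.1.2 h.2)]
  have : (blockDiagonal fun _ : δ => A) =
      (blockDiagonal fun _ : γ => blockDiagonal fun _ : β => A).submatrix σ σ := by
    ext ⟨i, b⟩ ⟨i', b'⟩
    simp only [submatrix_apply, σ, blockDiagonal_apply, ← e.injective.eq_iff, Prod.ext_iff]
    by_cases h1 : (e b).1 = (e b').1 <;> by_cases h2 : (e b).2 = (e b').2 <;> simp [h1, h2]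
  rw [this]
  refine (cx_submatrix _ _ _ hσ).trans ?_
  simpa using cx_blockDiagonal (fun _ : γ => blockDiagonal fun _ : β => A)

theorem cx_dft_le_circ {Γ : Type} [AddCommGroup Γ] [Fintype Γ] [DecidableEq Γ]
    {F : Matrix Γ Γ ℂ} (hF : IsFourier F) (φ : ℤ →+ Γ) (n : ℕ)
    (hφ : ∀ d : ℤ, φ d = 0 → |d| < 2 * n → d = 0) :
    cx (dftM n) ≤ 2 * n + 2 * Fintype.card Γ + 2 * cx F := by
  obtain ⟨c, hc⟩ := exists_circ φ n hφ (fun d => (chirp n d)⁻¹)
  have hlt : ∀ x : Fin n, (x.val : ℤ) < n := fun x => by exact_mod_cast x.2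
  have hge : ∀ x : Fin n, (0 : ℤ) ≤ x.val := fun x => by positivity
  have hinj : Function.Injective fun x : Fin n => φ x.val := fun x y hxy => by
    have := hφ (x.val - y.val) (by rw [map_sub]; exact sub_eq_zero.mpr hxy) (by
      have := hlt x; have := hlt y; have := hge x; have := hge y
      rw [abs_lt]; constructor <;> linarith)
    exact Fin.ext (by omega)
  have e : dftM n = diagonal (fun x : Fin n => chirp n x.val) *
      (circulant c).submatrix (fun x : Fin n => φ x.val) (fun x : Fin n => φ x.val) *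
      diagonal (fun x : Fin n => chirp n x.val) := by
    ext x y
    rw [mul_diagonal, diagonal_mul, submatrix_apply, circulant_apply, ← map_sub, hc _ (by
      have := hlt x; have := hlt y; have := hge x; have := hge y
      rw [abs_lt]; constructor <;> linarith), ← bluestein]
    rfl
  have h1 := cx_mul (diagonal (fun x : Fin n => chirp n x.val) *
      (circulant c).submatrix (fun x : Fin n => φ x.val) (fun x : Fin n => φ x.val))
      (diagonal (fun x : Fin n => chirp n x.val))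
  have h2 := cx_mul (diagonal (fun x : Fin n => chirp n x.val))
      ((circulant c).submatrix (fun x : Fin n => φ x.val) (fun x : Fin n => φ x.val))
  have h3 := cx_diagonal (fun x : Fin n => chirp n x.val)
  have h4 := cx_submatrix (circulant c) (fun x : Fin n => φ x.val) _ hinj
  have h5 := cx_Mu F (fun ξ => ∑ d, c d * F ξ d)
  rw [← hF.circulant_eq] at h5
  rw [Fintype.card_fin] at h3
  rw [e]; omega

theorem cx_dft_structural (n r e l : ℕ) (q : Fin r → ℕ) (hq0 : ∀ i, q i ≠ 0)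
    (hodd : ∀ i, Nat.Coprime (q i) 2) (hcop : Pairwise fun i j => Nat.Coprime (q i) (q j))
    (hl : ∀ i, q i ≤ 2 ^ l) (he : 3 * r ≤ e) (hn : 2 * n ≤ (∏ i, q i) * 2 ^ e) (a : ℝ)
    (ha : ∀ k ≤ r, aC k ≤ a) :
    (cx (dftM n) : ℝ) ≤ 2 * n + ((∏ i, q i) * 2 ^ e : ℕ) *
      (10 * e + 6 + 2 * ((96 * l + 240) * (a + 1))) := by
  have : ∀ i, NeZero (q i) := fun i => ⟨hq0 i⟩
  have hF0 : IsFourier (piMat fun i => FZ (q i)) := IsFourier.pi fun i => isFourier_FZ (q i)
  have hF := hF0.kron (isFourier_FZ (2 ^ e))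
  let φ : ℤ →+ (∀ i, ZMod (q i)) × ZMod (2 ^ e) :=
    (AddMonoidHom.pi fun i => Int.castAddHom (ZMod (q i))).prod (Int.castAddHom _)
  have hφ : ∀ d : ℤ, φ d = 0 → |d| < 2 * n → d = 0 := by
    intro d hd hlt
    have h1 : ∀ i, (q i : ℤ) ∣ d := fun i =>
      (ZMod.intCast_zmod_eq_zero_iff_dvd d (q i)).mp (congrFun (congrArg Prod.fst hd) i)
    have h2 : ((2 ^ e : ℕ) : ℤ) ∣ d :=
      (ZMod.intCast_zmod_eq_zero_iff_dvd d (2 ^ e)).mp (congrArg Prod.snd hd)
    have h3 : (∏ i, (q i : ℤ)) ∣ d :=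
      Fintype.prod_dvd_of_coprime (fun i j hij => Nat.isCoprime_iff_coprime.mpr (hcop hij)) h1
    have h4 : IsCoprime (∏ i, (q i : ℤ)) ((2 ^ e : ℕ) : ℤ) :=
      IsCoprime.prod_left fun i _ => Nat.isCoprime_iff_coprime.mpr ((hodd i).pow_right e)
    refine Int.eq_zero_of_abs_lt_dvd (h4.mul_dvd h3 h2) ?_
    have : (2 * n : ℤ) ≤ (∏ i, (q i : ℤ)) * ((2 ^ e : ℕ) : ℤ) := by exact_mod_cast hn
    linarith
  have h1 := cx_dft_le_circ hF φ n hφ
  have hc0 : Fintype.card (∀ i, ZMod (q i)) = ∏ i, q i := by simp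
  rw [Fintype.card_prod, hc0, ZMod.card] at h1
  have h2 : cx (piMat (fun i => FZ (q i)) ⊗ₖ FZ (2 ^ e)) ≤
      cx (blockDiagonal fun _ : ZMod (2 ^ e) => piMat fun i => FZ (q i)) +
        (∏ i, q i) * (2 ^ e * (5 * e + 1)) := by
    rw [kron_split]
    refine (cx_mul _ _).trans (add_le_add (by rw [Matrix.kronecker_one]) ?_)
    refine (cx_one_kron _).trans ?_
    rw [hc0]
    refine Nat.mul_le_mul_left _ ?_
    simpa using (depth_FZ_pow e).cx_le
  obtain ⟨e', rfl⟩ := Nat.exists_eq_add_of_le he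
  have E : ZMod (2 ^ (3 * r + e')) ≃ (Fin r → Fin 4 ⊕ Fin 4) × Fin (2 ^ e') :=
    Fintype.equivOfCardEq (by simp [pow_add, pow_mul])
  have h3 := cx_bd_prod E (piMat fun i => FZ (q i))
  rw [Fintype.card_fin] at h3
  let σ : (∀ i, ZMod (q i)) × (Fin r → Fin 4 ⊕ Fin 4) → ∀ i, ZMod (q i) × (Fin 4 ⊕ Fin 4) :=
    fun p i => (p.1 i, p.2 i)
  have hσ : Function.Injective σ := by
    rintro ⟨x, b⟩ ⟨y, b'⟩ h
    exact Prod.ext (funext fun i => congrArg Prod.fst (congrFun h i))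
      (funext fun i => congrArg Prod.snd (congrFun h i))
  have h4 : (blockDiagonal fun _ : Fin r → Fin 4 ⊕ Fin 4 => piMat fun i => FZ (q i)) =
      (piMat fun i => blockDiagonal fun _ : Fin 4 ⊕ Fin 4 => FZ (q i)).submatrix σ σ := by
    ext ⟨x, b⟩ ⟨y, b'⟩
    simp only [submatrix_apply, σ, blockDiagonal_apply, piMat]
    by_cases hb : b = b'
    · subst hb; simp
    · rw [if_neg hb]
      obtain ⟨i, hi⟩ : ∃ i, b i ≠ b' i := by
        by_contra hc; push Not at hc; exact hb (funext hc)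
      exact (Finset.prod_eq_zero (Finset.mem_univ i) (if_neg hi)).symm
  have h5 := cx_submatrix (piMat fun i => blockDiagonal fun _ : Fin 4 ⊕ Fin 4 => FZ (q i)) σ σ hσ
  rw [← h4] at h5
  have h6 := cx_piMat_depth (96 * l + 240) _ (fun i => depth_FZ_batch (q i) l (hl i)) a
    (by simpa using ha)
  have hc1 : Fintype.card (∀ i, ZMod (q i) × (Fin 4 ⊕ Fin 4)) = (∏ i, q i) * 2 ^ (3 * r) := by
    simp [Finset.prod_mul_distrib, pow_mul]
  rw [hc1] at h6
  have h7 : cx (dftM n) ≤ 2 * n + 2 * ((∏ i, q i) * 2 ^ (3 * r + e')) +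
      2 * (2 ^ e' * cx (piMat fun i => blockDiagonal fun _ : Fin 4 ⊕ Fin 4 => FZ (q i)) +
        (∏ i, q i) * (2 ^ (3 * r + e') * (5 * (3 * r + e') + 1))) := by
    have := Nat.mul_le_mul_left (2 ^ e') h5
    omega
  have h8 : (cx (dftM n) : ℝ) ≤ 2 * n + 2 * (((∏ i, q i : ℕ) : ℝ) * 2 ^ (3 * r + e')) +
      2 * (2 ^ e' * cx (piMat fun i => blockDiagonal fun _ : Fin 4 ⊕ Fin 4 => FZ (q i)) +
        ((∏ i, q i : ℕ) : ℝ) * (2 ^ (3 * r + e') * (5 * (3 * r + e') + 1))) := by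
    exact_mod_cast h7
  have h9 := mul_le_mul_of_nonneg_left h6 (show (0 : ℝ) ≤ 2 ^ e' by positivity)
  generalize (∏ i, q i) = N at *
  push_cast at *
  rw [pow_add] at *
  nlinarith

theorem exists_params (n : ℕ) (hn : 64 ≤ n) : ∃ (r e l : ℕ) (q : Fin r → ℕ), 1 ≤ r ∧
    (∀ i, q i ≠ 0) ∧ (∀ i, Nat.Coprime (q i) 2) ∧ (Pairwise fun i j => Nat.Coprime (q i) (q j)) ∧
    (∀ i, q i ≤ 2 ^ l) ∧ 3 * r ≤ e ∧ 2 * n ≤ (∏ i, q i) * 2 ^ e ∧ (∏ i, q i) * 2 ^ e ≤ 4 * n ∧
    e ≤ 7 * r ^ 2 ∧ l * r ≤ 2 * Nat.log 2 n ∧ 6 * r ^ 3 ≤ Nat.log 2 n ∧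
    Nat.log 2 n + 1 ≤ 48 * r ^ 3 := by
  have hL : 6 ≤ Nat.log 2 n := (Nat.le_log_iff_pow_le (by norm_num) (by omega)).mpr hn
  have hL1 : 2 ^ Nat.log 2 n ≤ n := Nat.pow_log_le_self 2 (by omega)
  have hL2 : n < 2 ^ (Nat.log 2 n + 1) := Nat.lt_pow_succ_log_self (by norm_num) n
  generalize Nat.log 2 n = L at *
  have hex : ∃ r, ¬ 6 * (r + 2) ^ 3 ≤ L := ⟨L, by
    have : L + 2 ≤ (L + 2) ^ 3 := Nat.le_self_pow (by norm_num) _
    omega⟩
  obtain ⟨r, hr1, hr2, hr3⟩ : ∃ r, 1 ≤ r ∧ 6 * r ^ 3 ≤ L ∧ L < 6 * (r + 1) ^ 3 := by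
    refine ⟨Nat.find hex + 1, by omega, ?_, not_le.mp (Nat.find_spec hex)⟩
    rcases h : Nat.find hex with _ | k
    · simpa using hL
    · have := Nat.find_min hex (m := k) (by omega)
      simpa using this
  have hr4 : L + 1 ≤ 48 * r ^ 3 := by
    have : (r + 1) ^ 3 ≤ (2 * r) ^ 3 := Nat.pow_le_pow_left (by omega) 3
    rw [mul_pow] at this
    omega
  have hr5 : r + 1 ≤ 2 ^ r := Nat.lt_two_pow_self
  have hP1 : (8 * (r + 1) * (r.factorial * 2 ^ 1)) ^ r ≤ n := by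
    have h1 : r.factorial ≤ 2 ^ (r * r) := by
      rw [pow_mul]
      exact (Nat.factorial_le_pow r).trans (Nat.pow_le_pow_left (by omega) r)
    have h2 : 8 * (r + 1) * (r.factorial * 2 ^ 1) ≤ 2 ^ (4 + r + r * r) := by
      rw [pow_add, pow_add]
      calc 8 * (r + 1) * (r.factorial * 2 ^ 1) = 2 ^ 4 * (r + 1) * r.factorial := by ring
        _ ≤ _ := by gcongr
    calc _ ≤ (2 ^ (4 + r + r * r)) ^ r := Nat.pow_le_pow_left h2 r
      _ = 2 ^ ((4 + r + r * r) * r) := by rw [← pow_mul]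
      _ ≤ 2 ^ L := Nat.pow_le_pow_right (by norm_num) (by
          have : r ≤ r * r := Nat.le_mul_self r
          have : r * r ≤ r * r * r := Nat.le_mul_of_pos_right _ hr1
          have : r ^ 3 = r * r * r := by ring
          nlinarith)
      _ ≤ n := hL1
  have hex2 : ∃ b, ¬ (8 * (r + 1) * (r.factorial * 2 ^ (b + 2))) ^ r ≤ n := ⟨n, by
    have h1 : n < 2 ^ (n + 2) := lt_of_lt_of_le Nat.lt_two_pow_self
      (Nat.pow_le_pow_right (by norm_num) (by omega))
    have h2 : 2 ^ (n + 2) ≤ 8 * (r + 1) * (r.factorial * 2 ^ (n + 2)) := by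
      have := Nat.factorial_pos r
      calc 2 ^ (n + 2) = 1 * (1 * 2 ^ (n + 2)) := by ring
        _ ≤ _ := by gcongr <;> omega
    have h3 := Nat.le_self_pow (n := r) (by omega) (8 * (r + 1) * (r.factorial * 2 ^ (n + 2)))
    omega⟩
  obtain ⟨b, hb1, hb2⟩ : ∃ b, (8 * (r + 1) * (r.factorial * 2 ^ (b + 1))) ^ r ≤ n ∧
      n < (8 * (r + 1) * (r.factorial * 2 ^ (b + 2))) ^ r := by
    refine ⟨Nat.find hex2, ?_, by have := Nat.find_spec hex2; omega⟩
    rcases h : Nat.find hex2 with _ | k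
    · simpa using hP1
    · have := Nat.find_min hex2 (m := k) (by omega)
      simpa using this
  set a := r.factorial * 2 ^ (b + 1) with ha
  have ha0 : 0 < a := Nat.mul_pos (Nat.factorial_pos r) (by positivity)
  have hb2' : n < (16 * (r + 1)) ^ r * a ^ r := by
    rw [← mul_pow]
    convert hb2 using 2
    rw [ha]; ring
  let q : Fin r → ℕ := fun i => (i.val + 1) * a + 1
  have hq1 : ∀ i, a ≤ q i := fun i => by simp only [q]; nlinarith
  have hq2 : ∀ i, 8 * q i ≤ 8 * (r + 1) * a := fun i => by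
    have := i.2
    simp only [q]; nlinarith
  have hN1 : a ^ r ≤ ∏ i, q i := by
    simpa using Finset.prod_le_prod' (s := Finset.univ) (f := fun _ : Fin r => a) fun i _ => hq1 i
  have hN2 : 2 ^ (3 * r) * ∏ i, q i ≤ n := by
    have := Finset.prod_le_prod' (s := Finset.univ) (f := fun i : Fin r => 8 * q i)
      (g := fun _ => 8 * (r + 1) * a) fun i _ => hq2 i
    simp only [Finset.prod_mul_distrib, Finset.prod_const, Finset.card_univ, Fintype.card_fin,
      ← mul_pow] at this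
    rw [pow_mul]
    exact this.trans hb1
  have hN0 : 0 < ∏ i, q i := lt_of_lt_of_le (by positivity) hN1
  have hex3 : ∃ e, 2 * n ≤ (∏ i, q i) * 2 ^ (e + 1) := ⟨n, by
    have h1 : n < 2 ^ n := Nat.lt_two_pow_self
    rw [pow_succ]; nlinarith⟩
  obtain ⟨e, he1, he2⟩ : ∃ e, 2 * n ≤ (∏ i, q i) * 2 ^ (e + 1) ∧ (∏ i, q i) * 2 ^ e ≤ 2 * n := by
    refine ⟨Nat.find hex3, Nat.find_spec hex3, ?_⟩
    rcases h : Nat.find hex3 with _ | k
    · have : 1 ≤ 2 ^ (3 * r) := Nat.one_le_two_pow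
      nlinarith
    · have := Nat.find_min hex3 (m := k) (by omega)
      omega
  refine ⟨r, e + 1, L / r + 1, q, hr1, fun i => by simp [q], fun i => ?_, fun i j hij => ?_,
    fun i => ?_, ?_, he1, by rw [pow_succ, ← mul_assoc]; omega, ?_, ?_, hr2, hr4⟩
  · have : q i = 2 * ((i.val + 1) * (r.factorial * 2 ^ b)) + 1 := by simp only [q, ha]; ring
    rw [this]; simp
  · have key : ∀ i j : Fin r, i < j → Nat.Coprime (q i) (q j) := fun i j h => by
      refine Nat.coprime_mul_succ (Dvd.dvd.mul_right (Nat.dvd_factorial ?_ ?_) _)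
      · have : i.val < j.val := h
        omega
      · have := j.2; omega
    rcases lt_or_gt_of_ne hij with h | h
    · exact key i j h
    · exact (key j i h).symm
  · have h1 : (8 * (r + 1) * a) ^ r < (2 ^ (L / r + 1)) ^ r := by
      rw [← pow_mul]
      refine lt_of_le_of_lt hb1 (lt_of_lt_of_le hL2 (Nat.pow_le_pow_right (by norm_num) ?_))
      have := Nat.lt_mul_div_succ L (show 0 < r by omega)
      rw [mul_comm]; omega
    have h2 := lt_of_pow_lt_pow_left₀ r (by positivity) h1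
    have := hq2 i
    omega
  · have h1 : (∏ i, q i) * 2 ^ (3 * r + 1) ≤ (∏ i, q i) * 2 ^ (e + 1) := by
      rw [pow_succ]; nlinarith
    have h2 := Nat.le_of_mul_le_mul_left h1 hN0
    have := (Nat.pow_le_pow_iff_right (by norm_num)).mp h2
    omega
  · have h1 : 16 * (r + 1) ≤ 2 ^ (r + 4) := by rw [pow_add]; omega
    have h2 : (16 * (r + 1)) ^ r ≤ 2 ^ ((r + 4) * r) := by
      rw [pow_mul]; exact Nat.pow_le_pow_left h1 r
    have h3 : (∏ i, q i) * 2 ^ e ≤ (∏ i, q i) * 2 ^ ((r + 4) * r + 1) := by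
      have := Nat.mul_le_mul h2 hN1
      rw [pow_succ]; nlinarith
    have h4 := Nat.le_of_mul_le_mul_left h3 hN0
    have := (Nat.pow_le_pow_iff_right (by norm_num)).mp h4
    nlinarith
  · have h1 := Nat.div_mul_le_self L r
    have : r ≤ r ^ 3 := Nat.le_self_pow (by norm_num) _
    nlinarith

end Vale.Agent.P344
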