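import Vale.Agent.P344.Sync

/-! Exact-width layered shears with dirty ancillas. -/

namespace Vale.Agent.P344

open Matrix

set_option linter.unusedSectionVars false

section two
variable {P : Type} [Fintype P] [DecidableEq P]

noncomputable def b2 (P : Type) [DecidableEq P] (a b c d : ℂ) : Matrix (P ⊕ P) (P ⊕ P) ℂ :=
  fromBlocks (a • 1) (b • 1) (c • 1) (d • 1)

theorem b2_mul (a b c d a' b' c' d' : ℂ) : b2 P a b c d * b2 P a' b' c' d' =
    b2 P (a * a' + b * c') (a * b' + b * d') (c * a' + d * c') (c * b' + d * d') := by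
  simp [b2, fromBlocks_multiply, add_smul, smul_smul, mul_comm]

theorem isMono_smul_one {a : ℂ} (ha : a ≠ 0) : IsMono (a • (1 : Matrix P P ℂ)) := by
  have : a • (1 : Matrix P P ℂ) = diagonal fun _ => a := by
    rw [smul_one_eq_diagonal]
  rw [this]; exact isMono_diagonal fun _ => ha

theorem isMono_b2 {a d : ℂ} (ha : a ≠ 0) (hd : d ≠ 0) : IsMono (b2 P a 0 0 d) := by
  simpa [b2] using (isMono_smul_one (P := P) ha).fromBlocks (isMono_smul_one (P := P) hd)

theorem depth_b2_C : Depth 1 (b2 P al be be al) := by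
  have : b2 P al be be al = Emat (Sum.swap : P ⊕ P → P ⊕ P) := by
    ext (i | i) (j | j) <;> simp [b2, Emat, Matrix.one_apply, eq_comm]
  rw [this]; exact depth_Emat Sum.swap_swap

theorem b2_congr {a b c d a' b' c' d' : ℂ} (h1 : a = a') (h2 : b = b') (h3 : c = c')
    (h4 : d = d') : b2 P a b c d = b2 P a' b' c' d' := by rw [h1, h2, h3, h4]

theorem depth_shear2 : Depth 3 (b2 P 1 0 1 1) := by
  have hI : Complex.I ≠ 0 := Complex.I_ne_zero
  have h1 : al ≠ 0 := by
    intro h; have := congrArg Complex.re h; simp [al] at this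
  have h2 : (2 / 5 * (1 - Complex.I) : ℂ) ≠ 0 := by
    intro h; have := congrArg Complex.re h; simp at this
  have h := ((((depth_b2_C (P := P)).mono_mul (isMono_b2 h1 h2)).mul
    (depth_b2_C.mono_mul (isMono_b2 (a := 1) (d := 3) one_ne_zero (by norm_num)))).mul
    (depth_b2_C.mono_mul (isMono_b2 (a := 1) (d := 1 / 2) one_ne_zero (by norm_num)))).mul_mono
    (isMono_b2 (a := 1) (d := 5 / 3 * Complex.I) one_ne_zero (by simp))
  simp only [b2_mul] at h
  convert h using 1
  refine b2_congr ?_ ?_ ?_ ?_ <;> simp only [al, be] <;> apply Complex.ext <;> simp <;> norm_num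

theorem depth_butterfly : Depth 1 (b2 P 1 1 1 (-1)) := by
  have h1 : (1 - Complex.I : ℂ) ≠ 0 := by
    intro h; have := congrArg Complex.re h; simp at this
  have h2 : (1 + Complex.I : ℂ) ≠ 0 := by
    intro h; have := congrArg Complex.re h; simp at this
  have h := ((depth_b2_C (P := P)).mono_mul (isMono_b2 h1 h2)).mul_mono
    (isMono_b2 (a := 1) (d := Complex.I) one_ne_zero Complex.I_ne_zero)
  simp only [b2_mul] at h
  convert h using 1
  refine b2_congr ?_ ?_ ?_ ?_ <;> simp only [al, be] <;> apply Complex.ext <;> simp <;> norm_num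

end two

theorem exists_equiv_sum {Y ι : Type} [Fintype ι] (j : Y → ι) (hj : Function.Injective j) :
    ∃ (ρ : Type) (_ : Fintype ρ) (_ : DecidableEq ρ) (e : Y ⊕ ρ ≃ ι), ∀ y, e (Sum.inl y) = j y := by
  classical
  exact ⟨{i // i ∉ Set.range j}, inferInstance, inferInstance,
    (Equiv.sumCongr (Equiv.ofInjective j hj) (Equiv.refl _)).trans
      (Equiv.sumCompl (· ∈ Set.range j)), fun _ => rfl⟩

theorem depth_matching {P ι : Type} [Fintype P] [DecidableEq P] [Fintype ι] [DecidableEq ι]
    (src tgt : P → ι) (h : Function.Injective (Sum.elim src tgt)) :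
    Depth 3 (1 + (Pm tgt)ᵀ * Pm src) := by
  obtain ⟨ρ, _, _, e, he⟩ := exists_equiv_sum _ h
  have hs : ∀ p, src p = e (Sum.inl (Sum.inl p)) := fun p => (he (Sum.inl p)).symm
  have ht : ∀ p, tgt p = e (Sum.inl (Sum.inr p)) := fun p => (he (Sum.inr p)).symm
  refine Depth.of_submatrix e ?_
  convert (depth_shear2 (P := P)).fromBlocks ((isMono_one (ι := ρ)).depth 3) using 1
  ext w w'
  simp only [submatrix_apply, Matrix.add_apply, Matrix.mul_apply, transpose_apply, Pm, hs, ht,
    e.injective.eq_iff, Matrix.one_apply]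
  rcases w with ((p | p) | r) <;> rcases w' with ((p' | p') | r') <;>
    simp [b2, Matrix.one_apply, eq_comm]

section
variable {P D A : Type} [Fintype P] [DecidableEq P] [Fintype D] [DecidableEq D] [Fintype A]
  [DecidableEq A]

theorem depth_low (s : P → D) (t : P → A) (hs : Function.Injective s)
    (ht : Function.Injective t) : Depth 3 (low ((Pm t)ᵀ * Pm s)) := by
  convert depth_matching (Sum.inl ∘ s) (Sum.inr ∘ t) ?_ using 1
  · ext (w | w) (w' | w') <;> simp [low, Matrix.mul_apply, Pm, Matrix.one_apply]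
  · rintro (p | p) (p' | p') h <;> simp at h
    · rw [hs h]
    · rw [ht h]

theorem depth_up (s : P → D) (t : P → A) (hs : Function.Injective s)
    (ht : Function.Injective t) : Depth 3 (up ((Pm s)ᵀ * Pm t)) := by
  convert depth_matching (Sum.inr ∘ t) (Sum.inl ∘ s) ?_ using 1
  · ext (w | w) (w' | w') <;> simp [up, Matrix.mul_apply, Pm, Matrix.one_apply]
  · rintro (p | p) (p' | p') h <;> simp at h
    · rw [ht h]
    · rw [hs h]

theorem Depth.of_inv {k : ℕ} {B C : Matrix D D ℂ} (h : Depth k B) (e : B * C = 1) :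
    Depth k C := by
  obtain ⟨B', hB', e'⟩ := h.inv
  have : B' = C := by rw [← Matrix.mul_one B', ← e, ← Matrix.mul_assoc, e', Matrix.one_mul]
  rwa [← this]

theorem Depth.low_neg {k : ℕ} {U : Matrix A D ℂ} (h : Depth k (low U)) : Depth k (low (-U)) :=
  h.of_inv (by rw [low_mul_low]; simp [low])

theorem Depth.up_neg {k : ℕ} {V : Matrix D A ℂ} (h : Depth k (up V)) : Depth k (up (-V)) :=
  h.of_inv (by rw [up_mul_up]; simp [up])

theorem Depth.anc {k : ℕ} {B : Matrix D D ℂ} (h : Depth k (Matrix.fromBlocks B 0 0 (1 : Matrix A A ℂ)))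
    (ρ : Type) [Fintype ρ] [DecidableEq ρ] (hρ : Fintype.card A ≤ Fintype.card ρ) :
    Depth k (Matrix.fromBlocks B 0 0 (1 : Matrix ρ ρ ℂ)) := by
  obtain ⟨N, hN⟩ := Nat.exists_eq_add_of_le hρ
  have e : ρ ≃ A ⊕ Fin N := Fintype.equivOfCardEq (by simp [hN])
  convert (h.fromBlocks ((isMono_one (ι := Fin N)).depth k)).submatrix
    ((Equiv.sumCongr (Equiv.refl D) e).trans (Equiv.sumAssoc D A (Fin N)).symm) using 1
  ext (w | w) (w' | w')
  · simp
  · rcases h' : e w' with x | x <;> simp [h']
  · rcases h' : e w with x | x <;> simp [h']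
  · rw [fromBlocks_apply₂₂, Matrix.one_apply, if_congr e.injective.eq_iff.symm rfl rfl]
    rcases h' : e w with x | x <;> rcases h'' : e w' with y | y <;>
      simp [h', h'', Matrix.one_apply]

end

section shear
variable {X A : Type} [Fintype X] [DecidableEq X] [Fintype A] [DecidableEq A]

/-- The shear `y += T x` with dirty ancillas `A` has depth `k`. -/
def ShearD (k : ℕ) (T : Matrix X X ℂ) (A : Type) [Fintype A] [DecidableEq A] : Prop :=
  Depth k (fromBlocks (fromBlocks 1 0 T 1) 0 0 (1 : Matrix A A ℂ))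

theorem shearD_of_sub {s : ℕ} {G : Matrix A A ℂ} (hG : Depth s G) (In Out : X → A)
    (hI : Function.Injective In) (hO : Function.Injective Out) :
    ShearD (4 * s + 12) (G.submatrix Out In) A := by
  obtain ⟨G', hG', e⟩ := hG.inv
  set U : Matrix A (X ⊕ X) ℂ := (Pm In)ᵀ * Pm (Sum.inl : X → X ⊕ X) with hU
  set V : Matrix (X ⊕ X) A ℂ := (Pm (Sum.inr : X → X ⊕ X))ᵀ * Pm Out with hV
  have h1 : Depth 3 (low U) := depth_low _ _ Sum.inl_injective hI
  have h2 : Depth 3 (up V) := depth_up _ _ Sum.inr_injective hO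
  have h3 : Depth (s + 3 + s) (up (V * G)) := by
    have := ((((isMono_one (ι := X ⊕ X)).depth s).fromBlocks hG').mul h2).mul
      (((isMono_one (ι := X ⊕ X)).depth s).fromBlocks hG)
    convert this using 1
    simp [up, fromBlocks_multiply, e]
  have h4 : U * (V * G) = 0 := by
    have : (Pm Sum.inl : Matrix X (X ⊕ X) ℂ) * (Pm Sum.inr : Matrix X (X ⊕ X) ℂ)ᵀ = 0 := by
      ext i j; simp [Matrix.mul_apply, Pm]
    rw [hU, hV, Matrix.mul_assoc, Matrix.mul_assoc, ← Matrix.mul_assoc (Pm (Sum.inl : X → X ⊕ X)),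
      this]
    simp
  have h5 := h1.low_neg.mul (h3.mul (h1.mul h3.up_neg))
  rw [comm_fwd _ _ h4] at h5
  refine Depth.le ?_ (show 3 + (s + 3 + s + (3 + (s + 3 + s))) ≤ 4 * s + 12 by omega)
  convert h5 using 2
  have e1 : (Pm Out * G * (Pm In)ᵀ : Matrix X X ℂ) = G.submatrix Out In := by
    ext i j; simp [Matrix.mul_apply, Pm]
  have e2 : V * G * U = (Pm (Sum.inr : X → X ⊕ X))ᵀ * G.submatrix Out In *
      Pm (Sum.inl : X → X ⊕ X) := by
    rw [← e1, hU, hV]; simp only [Matrix.mul_assoc]
  rw [e2]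
  ext (i | i) (j | j) <;> simp [Matrix.mul_apply, Pm, Matrix.one_apply]

theorem ShearD.conj {k : ℕ} {T M M' : Matrix X X ℂ} (h : ShearD k T A) (hM : IsMono M)
    (hM' : IsMono M') : ShearD k (M * T * M') A := by
  obtain ⟨N, hN, e⟩ := hM.inv
  obtain ⟨N', hN', e'⟩ := hM'.inv
  have := (Depth.mono_mul ((hN'.fromBlocks hM).fromBlocks (isMono_one (ι := A))) h).mul_mono
    ((hM'.fromBlocks hN).fromBlocks (isMono_one (ι := A)))
  unfold ShearD
  convert this using 1
  simp [fromBlocks_multiply, e', mul_eq_one_comm.mp e]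

theorem ShearD.upper {k : ℕ} {T : Matrix X X ℂ} (h : ShearD k T A) :
    Depth k (fromBlocks (fromBlocks 1 T 0 1) 0 0 (1 : Matrix A A ℂ)) := by
  convert Depth.submatrix h (Equiv.sumCongr (Equiv.sumComm X X) (Equiv.refl A)) using 1
  ext ((i | i) | i) ((j | j) | j) <;> simp

theorem ShearD.pair {k : ℕ} {F M : Matrix X X ℂ} (h : ShearD k F A) (hM : IsMono M)
    (e : M * F * F = 1) :
    Depth (3 * k) (fromBlocks (fromBlocks F 0 0 F) 0 0 (1 : Matrix A A ℂ)) := by
  obtain ⟨N, hN, eN⟩ := hM.inv
  have hneg : IsMono (-1 : Matrix X X ℂ) := by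
    simpa using isMono_smul_one (P := X) (a := -1) (by norm_num)
  have h2 := (h.conj (hneg.mul hM) isMono_one).upper
  have hs : IsMono (fromBlocks 0 1 (-N) 0 : Matrix (X ⊕ X) (X ⊕ X) ℂ) := by
    convert ((isMono_one (ι := X)).fromBlocks (hneg.mul hN)).mul
      (isMono_Pm (Equiv.sumComm X X)) using 1
    have : Pm (Equiv.sumComm X X) = (fromBlocks 0 1 1 0 : Matrix (X ⊕ X) (X ⊕ X) ℂ) := by
      ext (i | i) (j | j) <;> simp [Pm, Matrix.one_apply, eq_comm]
    rw [this]; simp [fromBlocks_multiply]
  have h3 := Depth.mono_mul (hs.fromBlocks (isMono_one (ι := A))) (Depth.mul h (h2.mul h))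
  have e' : F * (M * F) = 1 := mul_eq_one_comm.mp e
  rw [show 3 * k = k + (k + k) by ring]
  convert h3 using 1
  simp [fromBlocks_multiply, e, e', ← Matrix.mul_assoc N, eN]

theorem depth_batch {β : Type} [Fintype β] [DecidableEq β] {k : ℕ} {B : Matrix X X ℂ}
    (h : Depth k (fromBlocks B 0 0 (1 : Matrix A A ℂ)))
    (hA : Fintype.card A + Fintype.card X ≤ Fintype.card X * Fintype.card β) :
    Depth (Fintype.card β * k) (blockDiagonal fun _ : β => B) := by
  have h1 : ∀ b0 : β, Depth k (blockDiagonal fun b : β => if b = b0 then B else 1) := by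
    intro b0
    obtain ⟨ρ, _, _, e, he⟩ := exists_equiv_sum (fun x : X => (x, b0))
      (fun x y hxy => congrArg Prod.fst hxy)
    have hc := Fintype.card_congr e
    simp only [Fintype.card_sum, Fintype.card_prod] at hc
    refine Depth.of_submatrix e ?_
    convert h.anc ρ (by omega) using 1
    have hne : ∀ r, (e (Sum.inr r)).2 ≠ b0 := by
      intro r hr
      have : e (Sum.inr r) = e (Sum.inl (e (Sum.inr r)).1) := by rw [he, ← hr]
      simpa using e.injective this
    ext (i | i) (j | j)
    · simp [he, blockDiagonal_apply]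
    · simp [he, blockDiagonal_apply, (hne j).symm]
    · simp [he, blockDiagonal_apply, hne i]
    · simp only [submatrix_apply, blockDiagonal_apply, hne i, if_false, fromBlocks_apply₂₂,
        Matrix.one_apply]
      by_cases hij : i = j
      · subst hij; simp
      · have : e (Sum.inr i) ≠ e (Sum.inr j) := fun h' => hij (by simpa using h')
        rw [if_neg hij]
        split_ifs with a b
        · exact absurd (Prod.ext b a) this
        · rfl
        · rfl
  have h2 : ∀ t : Finset β,
      Depth (t.card * k) (blockDiagonal fun b : β => if b ∈ t then B else 1) := by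
    intro t
    induction t using Finset.induction_on with
    | empty =>
      have : (blockDiagonal fun _ : β => (1 : Matrix X X ℂ)) = 1 := blockDiagonal_one
      simp only [Finset.notMem_empty, if_false, this]
      exact isMono_one.depth _
    | insert b0 t hb ih =>
      have := (h1 b0).mul ih
      rw [← blockDiagonal_mul] at this
      rw [Finset.card_insert_of_notMem hb, show (t.card + 1) * k = k + t.card * k by ring]
      have e : (fun b : β => if b ∈ insert b0 t then B else 1) =
          fun b : β => (if b = b0 then B else 1) * if b ∈ t then B else 1 := by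
        funext b
        by_cases hb0 : b = b0
        · subst hb0; simp [hb]
        · simp [hb0]
      rw [e]; exact this
  simpa using h2 Finset.univ

end shear

end Vale.Agent.P344
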