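import Vale.Agent.P344.Shear

/-! The three-stage exchange network. -/

namespace Vale.Agent.P344

open Matrix
open scoped Kronecker

set_option linter.unusedSectionVars false

section stage
variable {T An β ρ D AG : Type}

/-- Regrouping of wires into invocations. -/
def sigma0 : ((T × β) ⊕ (T × β)) ⊕ ((An × β) ⊕ ρ) ≃ (((T ⊕ T) ⊕ An) × β) ⊕ ρ where
  toFun
    | .inl (.inl p) => .inl (.inl (.inl p.1), p.2)
    | .inl (.inr p) => .inl (.inl (.inr p.1), p.2)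
    | .inr (.inl p) => .inl (.inr p.1, p.2)
    | .inr (.inr r) => .inr r
  invFun
    | .inl (.inl (.inl t), b) => .inl (.inl (t, b))
    | .inl (.inl (.inr t), b) => .inl (.inr (t, b))
    | .inl (.inr a, b) => .inr (.inl (a, b))
    | .inr r => .inr (.inr r)
  left_inv := by rintro ((p | p) | (p | r)) <;> rfl
  right_inv := by rintro (⟨(t | t) | a, b⟩ | r) <;> rfl

def sigma1 (s : D ≃ T × β) (τ : AG ≃ (An × β) ⊕ ρ) :
    (D ⊕ D) ⊕ AG ≃ (((T ⊕ T) ⊕ An) × β) ⊕ ρ :=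
  (Equiv.sumCongr (Equiv.sumCongr s s) τ).trans sigma0

/-- Scalar two-by-two block on the data, identity on ancillas. -/
noncomputable def blk (T An : Type) [DecidableEq T] [DecidableEq An] (a b c d : ℂ) :
    Matrix ((T ⊕ T) ⊕ An) ((T ⊕ T) ⊕ An) ℂ :=
  fromBlocks (fromBlocks (a • 1) (b • 1) (c • 1) (d • 1)) 0 0 1

variable [DecidableEq T] [DecidableEq An] [DecidableEq β] [DecidableEq ρ] [DecidableEq D]
  [DecidableEq AG]

theorem liftA_sigma0 (a b c d : ℂ) :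
    liftA (sigma0 (T := T) (An := An) (β := β) (ρ := ρ)) (blk T An a b c d) =
      blk (T × β) ((An × β) ⊕ ρ) a b c d := by
  ext w w'
  rcases w with ((⟨t, x⟩ | ⟨t, x⟩) | (⟨t, x⟩ | r)) <;>
    rcases w' with ((⟨t', x'⟩ | ⟨t', x'⟩) | (⟨t', x'⟩ | r')) <;>
    simp [liftA, sigma0, blk, blockDiagonal_apply, Matrix.one_apply, ite_and] <;>
    split_ifs <;> rfl

theorem liftA_sigma1 (s : D ≃ T × β) (τ : AG ≃ (An × β) ⊕ ρ) (a b c d : ℂ) :
    liftA (sigma1 s τ) (blk T An a b c d) = blk D AG a b c d := by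
  have : liftA (sigma1 s τ) (blk T An a b c d) = (liftA sigma0 (blk T An a b c d)).submatrix
      (Equiv.sumCongr (Equiv.sumCongr s s) τ) (Equiv.sumCongr (Equiv.sumCongr s s) τ) := rfl
  rw [this, liftA_sigma0]
  ext w w'
  rcases w with ((t | t) | r) <;> rcases w' with ((t' | t') | r') <;>
    simp [blk, Matrix.one_apply]

theorem blk_mul [Fintype T] [Fintype An] (a b c d a' b' c' d' : ℂ) :
    blk T An a b c d * blk T An a' b' c' d' =
      blk T An (a * a' + b * c') (a * b' + b * d') (c * a' + d * c') (c * b' + d * d') := by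
  simp [blk, fromBlocks_multiply, add_smul, smul_smul, mul_comm]

theorem blk_one : blk T An 1 0 0 1 = 1 := by
  simp [blk]

end stage

section
variable {H : Type} [Fintype H] [DecidableEq H]

def K3 (A B C : Fr H) : Fr (H × H × H) := A ⊗ₖ (B ⊗ₖ C)

theorem cheap_K3 {a b c : ℕ} {A B C : Fr H} (hA : Cheap a A) (hB : Cheap b B) (hC : Cheap c C) :
    Cheap (a * (b * c)) (K3 A B C) := hA.kron (hB.kron hC)

theorem K3_one : K3 (1 : Fr H) 1 1 = 1 := by
  simp [K3]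

variable (H) in
abbrev Dt := Tr H × Tr H × Tr H

variable (H) in
def Ap := (Nb H ⊕ H) × (Tr H × Tr H)

instance : Fintype (Ap H) := inferInstanceAs (Fintype ((Nb H ⊕ H) × (Tr H × Tr H)))

noncomputable instance : DecidableEq (Ap H) := Classical.decEq _

variable (H) in
abbrev Wg := (Dt H ⊕ Dt H) ⊕ (Ap H ⊕ (Ap H ⊕ Ap H))

noncomputable instance : DecidableEq (Wg H) := instDecidableEqSum

def s1 : Dt H ≃ Tr H × (Tr H × Tr H) := Equiv.refl _

def s2 : Dt H ≃ Tr H × (Tr H × Tr H) where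
  toFun d := (d.2.1, (d.1, d.2.2))
  invFun d := (d.2.1, (d.1, d.2.2))
  left_inv _ := rfl
  right_inv _ := rfl

def s3 : Dt H ≃ Tr H × (Tr H × Tr H) where
  toFun d := (d.2.2, (d.1, d.2.1))
  invFun d := (d.2.1, (d.2.2, d.1))
  left_inv _ := rfl
  right_inv _ := rfl

def t1 : Ap H ⊕ (Ap H ⊕ Ap H) ≃ ((Nb H ⊕ H) × (Tr H × Tr H)) ⊕ (Ap H ⊕ Ap H) := Equiv.refl _

def t2 : Ap H ⊕ (Ap H ⊕ Ap H) ≃ ((Nb H ⊕ H) × (Tr H × Tr H)) ⊕ (Ap H ⊕ Ap H) where
  toFun
    | .inl a => .inr (.inl a)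
    | .inr (.inl a) => .inl a
    | .inr (.inr a) => .inr (.inr a)
  invFun
    | .inl a => .inr (.inl a)
    | .inr (.inl a) => .inl a
    | .inr (.inr a) => .inr (.inr a)
  left_inv := by rintro (a | a | a) <;> rfl
  right_inv := by rintro (a | a | a) <;> rfl

def t3 : Ap H ⊕ (Ap H ⊕ Ap H) ≃ ((Nb H ⊕ H) × (Tr H × Tr H)) ⊕ (Ap H ⊕ Ap H) where
  toFun
    | .inl a => .inr (.inl a)
    | .inr (.inl a) => .inr (.inr a)
    | .inr (.inr a) => .inl a
  invFun
    | .inl a => .inr (.inr a)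
    | .inr (.inl a) => .inl a
    | .inr (.inr a) => .inr (.inl a)
  left_inv := by rintro (a | a | a) <;> rfl
  right_inv := by rintro (a | a | a) <;> rfl

def e1 (b : Tr H × Tr H) : Fr H →+ Fr (H × H × H) :=
  AddMonoidHom.mk' (fun Q => K3 Q (PS b.1.1) (PS b.2.1)) fun Q Q' => by
    simp only [K3, Matrix.add_kronecker]

def e2 (b : Tr H × Tr H) : Fr H →+ Fr (H × H × H) :=
  AddMonoidHom.mk' (fun Q => K3 (PS b.1.1) Q (PS b.2.1)) fun Q Q' => by
    simp only [K3, Matrix.add_kronecker, Matrix.kronecker_add]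

def e3 (b : Tr H × Tr H) : Fr H →+ Fr (H × H × H) :=
  AddMonoidHom.mk' (fun Q => K3 (PS b.1.1) (PS b.2.1) Q) fun Q Q' => by
    simp only [K3, Matrix.kronecker_add]

def B2 (b : Tr H × Tr H) : Fr (H × H × H) := K3 (1 - PS b.1.1) 1 (PS b.2.1)

def B3 (b : Tr H × Tr H) : Fr (H × H × H) := K3 1 1 1 - K3 (PS b.1.1) (PS b.2.1) 1

def G1 (f : Wl H → Fr H) : Wg H → Fr (H × H × H) :=
  liftF (sigma1 s1 t1) (fun _ => 0) e1 (fun _ => 0) f

def G2 (f : Wl H → Fr H) : Wg H → Fr (H × H × H) :=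
  liftF (sigma1 s2 t2) B2 e2 (Sum.elim (fun _ => K3 1 1 1) fun _ => 0) f

def G3 (f : Wl H → Fr H) : Wg H → Fr (H × H × H) :=
  liftF (sigma1 s3 t3) B3 e3 (fun _ => K3 1 1 1) f

theorem fA_inr (a : Nb H ⊕ H) : fA (Sum.inr a) = 0 := by rcases a with a | a <;> rfl

theorem fF_inr (a : Nb H ⊕ H) : fF (Sum.inr a) = 1 := by rcases a with a | a <;> rfl

theorem stage1 (hH : 8 ≤ Fintype.card H) :
    Prog (G1 fA) (blk (Dt H) _ 1 0 1 1) (G1 fF) (Fintype.card (Tr H × Tr H) * cloc H) := by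
  have h : Prog (fA : Wl H → Fr H) (blk _ _ 1 0 1 1) fF (cloc H) :=
    (shear_fwd hH).of_eq rfl (by simp [blk]) rfl rfl
  refine (h.lift (sigma1 s1 t1) (fun _ => 0) e1 (fun b c Q hQ => ?_) (fun _ => 0)).of_eq rfl
    (liftA_sigma1 _ _ _ _ _ _) rfl rfl
  exact (cheap_K3 hQ (cheap_PS b.1.1) (cheap_PS b.2.1)).of_eq (by ring) rfl

theorem stage2 (hH : 8 ≤ Fintype.card H) :
    Prog (G2 fA) (blk (Dt H) _ 1 (-1) 0 1) (G2 fF) (Fintype.card (Tr H × Tr H) * cloc H) := by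
  have h : Prog (fA : Wl H → Fr H) (blk _ _ 1 (-1) 0 1) fF (cloc H) :=
    (shear_bwd hH).of_eq rfl (by simp [blk]) rfl rfl
  refine (h.lift (sigma1 s2 t2) B2 e2 (fun b c Q hQ => ?_) _).of_eq rfl
    (liftA_sigma1 _ _ _ _ _ _) rfl rfl
  exact (cheap_K3 (cheap_PS b.1.1) hQ (cheap_PS b.2.1)).of_eq (by ring) rfl

theorem stage3 (hH : 8 ≤ Fintype.card H) :
    Prog (G3 fA) (blk (Dt H) _ 1 0 1 1) (G3 fF) (Fintype.card (Tr H × Tr H) * cloc H) := by
  have h : Prog (fA : Wl H → Fr H) (blk _ _ 1 0 1 1) fF (cloc H) :=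
    (shear_fwd hH).of_eq rfl (by simp [blk]) rfl rfl
  refine (h.lift (sigma1 s3 t3) B3 e3 (fun b c Q hQ => ?_) _).of_eq rfl
    (liftA_sigma1 _ _ _ _ _ _) rfl rfl
  exact (cheap_K3 (cheap_PS b.1.1) (cheap_PS b.2.1) hQ).of_eq (by ring) rfl

def gcst (a b c d e : ℕ) : Wg H → ℕ :=
  Sum.elim (Sum.elim (fun _ => a) fun _ => b)
    (Sum.elim (fun _ => c) (Sum.elim (fun _ => d) fun _ => e))

theorem sum_gcst (a b c d e : ℕ) : ∑ w : Wg H, gcst a b c d e w =
    Fintype.card (Dt H) * (a + b) + Fintype.card (Ap H) * (c + d + e) := by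
  simp only [gcst, Fintype.sum_sum_type, Sum.elim_inl, Sum.elim_inr, Finset.sum_const,
    Finset.card_univ, smul_eq_mul]
  ring

theorem K3_ext {A B : Fr (H × H × H)}
    (h : ∀ a1 a2 a3 b1 b2 b3, A (a1, a2, a3) (b1, b2, b3) = B (a1, a2, a3) (b1, b2, b3)) :
    A = B := by
  ext ⟨a1, a2, a3⟩ ⟨b1, b2, b3⟩; exact h _ _ _ _ _ _

theorem K3_apply (A B C : Fr H) (a1 a2 a3 b1 b2 b3 : H) :
    K3 A B C (a1, a2, a3) (b1, b2, b3) = A a1 b1 * (B a2 b2 * C a3 b3) := rfl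

theorem move1 (hH : 8 ≤ Fintype.card H) (w : Wg H) :
    Cheap (gcst ((Fintype.card H - 1) * ((Fintype.card H - 1) * 1))
      ((Fintype.card H - 1) * ((Fintype.card H - 1) * 1))
      (Fintype.card H * ((Fintype.card H - 1) * Fintype.card H) +
        Fintype.card H * (1 * (Fintype.card H - 1)))
      ((Fintype.card H - 1) * (Fintype.card H * 1)) 0 w) (G2 fA w - G1 fF w) := by
  have c1 := fun t : Tr H => cheap_compl1 hH t.2
  have cP := fun t : Tr H => cheap_PS t.1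
  have cF := cheap_full (H := H)
  rcases w with ((⟨x, y, z⟩ | ⟨x, y, z⟩) | (⟨a, y, z⟩ | ⟨a, x, z⟩ | a))
  · refine (cheap_K3 (c1 x) (c1 y) (cP z)).of_eq rfl (K3_ext fun _ _ _ _ _ _ => ?_)
    change _ = (B2 (x, z) + K3 (PS x.1) (PS y.1) (PS z.1) - (0 + K3 1 (PS y.1) (PS z.1))) _ _
    simp only [B2, K3_apply, Matrix.add_apply, Matrix.sub_apply, Matrix.zero_apply]; ring
  · refine (cheap_K3 (c1 x) (c1 y) (cP z)).of_eq rfl (K3_ext fun _ _ _ _ _ _ => ?_)
    change _ = (B2 (x, z) + K3 (PS x.1) 0 (PS z.1) - (0 + K3 (1 - PS x.1) (PS y.1) (PS z.1))) _ _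
    simp only [B2, K3_apply, Matrix.add_apply, Matrix.sub_apply, Matrix.zero_apply]; ring
  · refine ((cheap_K3 cF (c1 y) cF).add (cheap_K3 cF (cP y) (c1 z))).of_eq rfl
      (K3_ext fun _ _ _ _ _ _ => ?_)
    change _ = (K3 (1 : Fr H) 1 1 - (0 + K3 (fF (Sum.inr a)) (PS y.1) (PS z.1))) _ _
    simp only [fF_inr, K3_apply, Matrix.add_apply, Matrix.sub_apply, Matrix.zero_apply]; ring
  · refine (cheap_K3 (c1 x) cF (cP z)).of_eq rfl (K3_ext fun _ _ _ _ _ _ => ?_)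
    change _ = (B2 (x, z) + K3 (PS x.1) (fA (Sum.inr a)) (PS z.1) - 0) _ _
    simp only [fA_inr, B2, K3_apply, Matrix.add_apply, Matrix.sub_apply, Matrix.zero_apply]; ring
  · exact Cheap.zero.of_eq rfl (sub_self _).symm

theorem move2 (hH : 8 ≤ Fintype.card H) (w : Wg H) :
    Cheap (gcst ((Fintype.card H - 1) * (Fintype.card H * (Fintype.card H - 1)) +
        1 * ((Fintype.card H - 1) * (Fintype.card H - 1)))
      ((Fintype.card H - 1) * (Fintype.card H * (Fintype.card H - 1)) +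
        1 * ((Fintype.card H - 1) * (Fintype.card H - 1))) 0
      (Fintype.card H * (Fintype.card H * (Fintype.card H - 1)))
      ((Fintype.card H - 1) * (Fintype.card H * Fintype.card H) +
        1 * ((Fintype.card H - 1) * Fintype.card H)) w) (G3 fA w - G2 fF w) := by
  have c1 := fun t : Tr H => cheap_compl1 hH t.2
  have cP := fun t : Tr H => cheap_PS t.1
  have cF := cheap_full (H := H)
  rcases w with ((⟨x, y, z⟩ | ⟨x, y, z⟩) | (a | ⟨a, x, z⟩ | ⟨a, x, y⟩))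
  · refine ((cheap_K3 (c1 x) cF (c1 z)).add (cheap_K3 (cP x) (c1 y) (c1 z))).of_eq rfl
      (K3_ext fun _ _ _ _ _ _ => ?_)
    change _ = (B3 (x, y) + K3 (PS x.1) (PS y.1) (PS z.1) -
      (B2 (x, z) + K3 (PS x.1) 1 (PS z.1))) _ _
    simp only [B2, B3, K3_apply, Matrix.add_apply, Matrix.sub_apply]; ring
  · refine ((cheap_K3 (c1 x) cF (c1 z)).add (cheap_K3 (cP x) (c1 y) (c1 z))).of_eq rfl
      (K3_ext fun _ _ _ _ _ _ => ?_)
    change _ = (B3 (x, y) + K3 (PS x.1) (PS y.1) 0 -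
      (B2 (x, z) + K3 (PS x.1) (1 - PS y.1) (PS z.1))) _ _
    simp only [B2, B3, K3_apply, Matrix.add_apply, Matrix.sub_apply, Matrix.zero_apply]; ring
  · exact Cheap.zero.of_eq rfl (sub_self _).symm
  · refine (cheap_K3 cF cF (c1 z)).of_eq rfl (K3_ext fun _ _ _ _ _ _ => ?_)
    change _ = (K3 (1 : Fr H) 1 1 - (B2 (x, z) + K3 (PS x.1) (fF (Sum.inr a)) (PS z.1))) _ _
    simp only [fF_inr, B2, K3_apply, Matrix.add_apply, Matrix.sub_apply]; ring
  · refine ((cheap_K3 (c1 x) cF cF).add (cheap_K3 (cP x) (c1 y) cF)).of_eq rfl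
      (K3_ext fun _ _ _ _ _ _ => ?_)
    change _ = (B3 (x, y) + K3 (PS x.1) (PS y.1) (fA (Sum.inr a)) - 0) _ _
    simp only [fA_inr, B3, K3_apply, Matrix.add_apply, Matrix.sub_apply, Matrix.zero_apply]; ring

/-- Frames after undoing the exchange. -/
def G4 : Wg H → Fr (H × H × H) :=
  Sum.elim (Sum.elim (fun d => G3 fF (Sum.inl (Sum.inr d))) fun d => G3 fF (Sum.inl (Sum.inl d)))
    fun a => G3 fF (Sum.inr a)

theorem unswap : Prog (G3 fF) (blk (Dt H) _ 0 1 (-1) 0) (G4 (H := H)) 0 := by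
  refine Prog.gate ?_
  rintro ((d | d) | a) ((d' | d') | a') hw
  · simp [blk] at hw
  · have : d = d' := by
      by_contra e; simp [blk, Matrix.one_apply_ne e] at hw
    subst this; rfl
  · simp [blk] at hw
  · have : d = d' := by
      by_contra e; simp [blk, Matrix.one_apply_ne e] at hw
    subst this; rfl
  · simp [blk] at hw
  · simp [blk] at hw
  · simp [blk] at hw
  · simp [blk] at hw
  · have : a = a' := by
      by_contra e; simp [blk, Matrix.one_apply_ne e] at hw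
    subst this; rfl

theorem move3 (w : Wg H) : Cheap 0 (G1 fA w + K3 (1 : Fr H) 1 1 - G4 w) := by
  have cP := fun t : Tr H => cheap_PS t.1
  rcases w with ((⟨x, y, z⟩ | ⟨x, y, z⟩) | (⟨a, y, z⟩ | a | ⟨a, x, y⟩))
  · refine (cheap_K3 (cP x) (cP y) (cP z)).double.of_eq rfl (K3_ext fun _ _ _ _ _ _ => ?_)
    change _ = (0 + K3 (PS x.1) (PS y.1) (PS z.1) + K3 (1 : Fr H) 1 1 -
      (B3 (x, y) + K3 (PS x.1) (PS y.1) (1 - PS z.1))) _ _
    simp only [B3, K3_apply, Matrix.add_apply, Matrix.sub_apply, Matrix.zero_apply]; ring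
  · refine Cheap.zero.of_eq rfl (K3_ext fun _ _ _ _ _ _ => ?_)
    change _ = (0 + K3 0 (PS y.1) (PS z.1) + K3 (1 : Fr H) 1 1 -
      (B3 (x, y) + K3 (PS x.1) (PS y.1) 1)) _ _
    simp only [B3, K3_apply, Matrix.add_apply, Matrix.sub_apply, Matrix.zero_apply]; ring
  · refine Cheap.zero.of_eq rfl (K3_ext fun _ _ _ _ _ _ => ?_)
    change _ = (0 + K3 (fA (Sum.inr a)) (PS y.1) (PS z.1) + K3 (1 : Fr H) 1 1 - K3 (1 : Fr H) 1 1) _ _
    simp only [fA_inr, K3_apply, Matrix.add_apply, Matrix.sub_apply, Matrix.zero_apply]; ring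
  · refine Cheap.zero.of_eq rfl (K3_ext fun _ _ _ _ _ _ => ?_)
    change _ = (0 + K3 (1 : Fr H) 1 1 - K3 (1 : Fr H) 1 1) _ _
    simp only [K3_apply, Matrix.add_apply, Matrix.sub_apply, Matrix.zero_apply]; ring
  · refine Cheap.zero.of_eq rfl (K3_ext fun _ _ _ _ _ _ => ?_)
    change _ = (0 + K3 (1 : Fr H) 1 1 - (B3 (x, y) + K3 (PS x.1) (PS y.1) (fF (Sum.inr a)))) _ _
    simp only [fF_inr, B3, K3_apply, Matrix.add_apply, Matrix.sub_apply, Matrix.zero_apply]; ring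

theorem network (hH : 8 ≤ Fintype.card H) : ∃ (f : Wg H → Fr (H × H × H)) (c : ℕ),
    Prog f 1 (fun w => f w + 1) c ∧
      c + 2 * Fintype.card (Tr H) ^ 3 = Fintype.card H ^ 3 * Fintype.card (Wg H) +
        6 * Fintype.card (Tr H) ^ 2 * Fintype.card H ^ 2 := by
  have p := ((((((stage1 hH).then_move _ (move1 hH)).comp (stage2 hH)).then_move _
    (move2 hH)).comp (stage3 hH)).comp unswap).then_move (f'' := fun w => G1 fA w + K3 (1 : Fr H) 1 1)
    (fun _ => 0) move3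
  refine ⟨G1 fA, _, p.of_eq rfl ?_ (by rw [K3_one]) rfl, ?_⟩
  · simp only [blk_mul]
    norm_num [blk_one]
  · have hAp : Fintype.card (Ap H) =
        (Fintype.card (Nb H) + Fintype.card H) * (Fintype.card (Tr H) * Fintype.card (Tr H)) := by
      rw [← Fintype.card_sum, ← Fintype.card_prod, ← Fintype.card_prod]; rfl
    simp only [sum_gcst, cloc, Fintype.card_sum, Fintype.card_prod, hAp, Finset.sum_const_zero]
    obtain ⟨k, hk⟩ : ∃ k, Fintype.card H = k + 1 := ⟨Fintype.card H - 1, by omega⟩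
    rw [hk]
    simp only [Nat.add_sub_cancel]
    ring

end

end Vale.Agent.P344
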