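import Vale.Agent.P344.Frames

/-! Framed linear networks and their soundness. -/

namespace Vale.Agent.P344

open Matrix
open scoped Kronecker

/-- Framed networks: wires carry frames, moving costs, gates mix equal frames only. -/
inductive Prog {μ W : Type} [Fintype W] [DecidableEq W] :
    (W → Fr μ) → Matrix W W ℂ → (W → Fr μ) → ℕ → Prop
  | move {f f' : W → Fr μ} (c : W → ℕ) :
      (∀ w, Cheap (c w) (f' w - f w)) → Prog f 1 f' (∑ w, c w)
  | gate {f f' : W → Fr μ} {A : Matrix W W ℂ} :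
      (∀ w w', A w w' ≠ 0 → f' w = f w') → Prog f A f' 0
  | comp {f f' f'' : W → Fr μ} {A B : Matrix W W ℂ} {c c' : ℕ} :
      Prog f A f' c → Prog f' B f'' c' → Prog f (B * A) f'' (c + c')

section
variable {μ W : Type} [Fintype W] [DecidableEq W]

theorem Prog.of_eq {f f' g g' : W → Fr μ} {A B : Matrix W W ℂ} {c d : ℕ} (h : Prog f A f' c)
    (hf : f = g) (hA : A = B) (hf' : f' = g') (hc : c = d) : Prog g B g' d := by
  subst hf hA hf' hc; exact h

/-- A move followed by a gate. -/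
theorem Prog.then_move {f f' f'' : W → Fr μ} {A : Matrix W W ℂ} {c : ℕ} (h : Prog f A f' c)
    (d : W → ℕ) (hd : ∀ w, Cheap (d w) (f'' w - f' w)) : Prog f A f'' (c + ∑ w, d w) :=
  (h.comp (Prog.move d hd)).of_eq rfl (Matrix.one_mul _) rfl rfl

theorem Prog.then_gate {f f' : W → Fr μ} {A B : Matrix W W ℂ} {c : ℕ} (h : Prog f A f' c)
    (hB : ∀ w w', B w w' ≠ 0 → f' w = f' w') : Prog f (B * A) f' c :=
  h.comp (Prog.gate hB)

variable [Fintype μ] [DecidableEq μ]

/-- The physical matrix of a framed logical matrix. -/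
noncomputable def phys (κ : Type) [Fintype κ] [DecidableEq κ] (f : W → Fr μ) (A : Matrix W W ℂ)
    (f' : W → Fr μ) : Matrix ((μ × κ → ZMod 2) × W) ((μ × κ → ZMod 2) × W) ℂ :=
  blockDiagonal (fun w => Phi κ (f' w)) * ((1 : Matrix _ _ ℂ) ⊗ₖ A) *
    blockDiagonal (fun w => Phi κ (-f w))

theorem phys_apply (κ : Type) [Fintype κ] [DecidableEq κ] (f : W → Fr μ) (A : Matrix W W ℂ)
    (f' : W → Fr μ) (x y : μ × κ → ZMod 2) (w w' : W) :
    phys κ f A f' (x, w) (y, w') = A w w' * Phi κ (f' w - f w') x y := by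
  rw [sub_eq_add_neg, Phi_add]
  simp only [phys, Matrix.mul_apply, Fintype.sum_prod_type, blockDiagonal_apply,
    kroneckerMap_apply, Matrix.one_apply, ite_mul, zero_mul, mul_ite, mul_zero, one_mul,
    Finset.sum_ite_eq', Finset.mem_univ, if_true, Finset.mul_sum]
  refine Finset.sum_congr rfl fun z _ => ?_
  rw [Finset.sum_comm]
  simp only [Finset.sum_ite_eq, Finset.sum_ite_eq', Finset.mem_univ, if_true]
  ring

theorem phys_comp (κ : Type) [Fintype κ] [DecidableEq κ] (f f' f'' : W → Fr μ)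
    (A B : Matrix W W ℂ) : phys κ f (B * A) f'' = phys κ f' B f'' * phys κ f A f' := by
  have h : blockDiagonal (fun w => Phi κ (-f' w)) * blockDiagonal (fun w => Phi κ (f' w)) = 1 := by
    rw [← blockDiagonal_mul]
    simp only [← Phi_add, neg_add_cancel, Phi_zero]
    exact blockDiagonal_one
  have h2 : ((1 : Matrix (μ × κ → ZMod 2) (μ × κ → ZMod 2) ℂ) ⊗ₖ (B * A)) =
      ((1 : Matrix (μ × κ → ZMod 2) (μ × κ → ZMod 2) ℂ) ⊗ₖ B) *
        ((1 : Matrix (μ × κ → ZMod 2) (μ × κ → ZMod 2) ℂ) ⊗ₖ A) := by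
    rw [← Matrix.mul_kronecker_mul, Matrix.one_mul]
  simp only [phys, h2, Matrix.mul_assoc]
  rw [← Matrix.mul_assoc (blockDiagonal fun w => Phi κ (-f' w)), h, Matrix.one_mul]

theorem phys_one (κ : Type) [Fintype κ] [DecidableEq κ] (f f' : W → Fr μ) :
    phys κ f 1 f' = blockDiagonal fun w => Phi κ (f' w - f w) := by
  ext ⟨x, w⟩ ⟨y, w'⟩
  rw [phys_apply, blockDiagonal_apply, Matrix.one_apply]
  by_cases h : w = w'
  · subst h; simp
  · simp [h]

theorem Prog.sound {f f' : W → Fr μ} {A : Matrix W W ℂ} {c : ℕ} (h : Prog f A f' c) :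
    ∃ g : ℝ, ∀ (κ : Type) [Fintype κ] [DecidableEq κ], (cx (phys κ f A f') : ℝ) ≤
      2 ^ (Fintype.card μ * Fintype.card κ) * (c * aC (Fintype.card κ) + g) := by
  induction h with
  | @move f f' c hc =>
    refine ⟨0, fun κ _ _ => ?_⟩
    rw [phys_one]
    have h1 : (cx (blockDiagonal fun w => Phi κ (f' w - f w)) : ℝ) ≤
        ∑ w, (cx (Phi κ (f' w - f w)) : ℝ) := by exact_mod_cast cx_blockDiagonal _
    refine h1.trans ((Finset.sum_le_sum fun w _ => (hc w).cx_le κ).trans (le_of_eq ?_))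
    rw [← Finset.mul_sum, ← Finset.sum_mul]; push_cast; ring
  | @gate f f' A hA =>
    refine ⟨cx A, fun κ _ _ => ?_⟩
    have e : phys κ f A f' = (1 : Matrix _ _ ℂ) ⊗ₖ A := by
      ext ⟨x, w⟩ ⟨y, w'⟩
      rw [phys_apply, kroneckerMap_apply]
      by_cases h : A w w' = 0
      · simp [h]
      · rw [hA w w' h, sub_self, Phi_zero, mul_comm]
    rw [e]
    have := cx_one_kron (β := μ × κ → ZMod 2) A
    simp only [Fintype.card_pi, ZMod.card, Finset.prod_const, Finset.card_univ,
      Fintype.card_prod] at this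
    have h2 : (cx ((1 : Matrix (μ × κ → ZMod 2) (μ × κ → ZMod 2) ℂ) ⊗ₖ A) : ℝ) ≤
      2 ^ (Fintype.card μ * Fintype.card κ) * cx A := by exact_mod_cast this
    simpa using h2
  | @comp f f' f'' A B c c' _ _ ih ih' =>
    obtain ⟨g, hg⟩ := ih
    obtain ⟨g', hg'⟩ := ih'
    refine ⟨g + g', fun κ _ _ => ?_⟩
    have h1 : (cx (phys κ f (B * A) f'') : ℝ) ≤ cx (phys κ f' B f'') + cx (phys κ f A f') := by
      rw [phys_comp κ f f' f'']; exact_mod_cast cx_mul _ _
    have := hg κ
    have := hg' κ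
    push_cast; linarith

end

section lift
variable {μ μ' W W' β ρ : Type} [Fintype W] [DecidableEq W] [Fintype W'] [DecidableEq W']
  [Fintype β] [DecidableEq β] [Fintype ρ] [DecidableEq ρ]

/-- Frames of parallel copies of a network. -/
def liftF (σ : W' ≃ (W × β) ⊕ ρ) (B : β → Fr μ') (e : β → Fr μ →+ Fr μ') (r : ρ → Fr μ')
    (f : W → Fr μ) : W' → Fr μ' :=
  fun w => Sum.elim (fun p : W × β => B p.2 + e p.2 (f p.1)) r (σ w)

/-- Logical matrix of parallel copies of a network. -/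
noncomputable def liftA (σ : W' ≃ (W × β) ⊕ ρ) (A : Matrix W W ℂ) : Matrix W' W' ℂ :=
  (fromBlocks (blockDiagonal fun _ : β => A) 0 0 (1 : Matrix ρ ρ ℂ)).submatrix σ σ

theorem Prog.lift (σ : W' ≃ (W × β) ⊕ ρ) (B : β → Fr μ') (e : β → Fr μ →+ Fr μ')
    (he : ∀ b c Q, Cheap c Q → Cheap c (e b Q)) (r : ρ → Fr μ')
    {f f' : W → Fr μ} {A : Matrix W W ℂ} {c : ℕ} (h : Prog f A f' c) :
    Prog (liftF σ B e r f) (liftA σ A) (liftF σ B e r f') (Fintype.card β * c) := by
  induction h with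
  | @move f f' c hc =>
    refine (Prog.move (f := liftF σ B e r f) (f' := liftF σ B e r f')
      (fun w => Sum.elim (fun p : W × β => c p.1) (fun _ => 0) (σ w)) ?_).of_eq rfl ?_ rfl ?_
    · intro w
      simp only [liftF]
      rcases σ w with ⟨u, b⟩ | x
      · simp only [Sum.elim_inl, add_sub_add_left_eq_sub, ← map_sub]
        exact he _ _ _ (hc u)
      · simpa using Cheap.zero
    · have : (blockDiagonal fun _ : β => (1 : Matrix W W ℂ)) = 1 := blockDiagonal_one
      rw [liftA, this, fromBlocks_one, submatrix_one_equiv]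
    · rw [Equiv.sum_comp σ (fun x => Sum.elim (fun p : W × β => c p.1) (fun _ => 0) x)]
      simp [Fintype.sum_prod_type, Finset.mul_sum]
  | @gate f f' A hA =>
    refine (Prog.gate ?_).of_eq rfl rfl rfl (by simp)
    intro w w'
    simp only [liftA, liftF, submatrix_apply]
    rcases σ w with ⟨u, b⟩ | x <;> rcases σ w' with ⟨u', b'⟩ | x'
    · simp only [fromBlocks_apply₁₁, blockDiagonal_apply, Sum.elim_inl]
      by_cases hb : b = b'
      · subst hb
        simp only [if_true]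
        intro h; rw [hA u u' h]
      · simp [hb]
    · simp
    · simp
    · simp only [fromBlocks_apply₂₂, Sum.elim_inr]
      intro h
      rw [Matrix.one_apply] at h
      by_cases hx : x = x'
      · rw [hx]
      · simp [hx] at h
  | @comp f f' f'' A A' c c' _ _ ih ih' =>
    refine (ih.comp ih').of_eq rfl ?_ rfl (by ring)
    simp only [liftA]
    rw [submatrix_mul_equiv, fromBlocks_multiply, ← blockDiagonal_mul]
    simp

end lift

end Vale.Agent.P344
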