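import Vale.Agent.P344.Network

/-! The power saving for tensor powers. -/

namespace Vale.Agent.P344

open Matrix

theorem cx_bd_split {ι β β1 β2 : Type} [Fintype ι] [DecidableEq ι] [Fintype β] [DecidableEq β]
    [Fintype β1] [DecidableEq β1] [Fintype β2] [DecidableEq β2] (e : β ≃ β1 ⊕ β2)
    (A : Matrix ι ι ℂ) : cx (blockDiagonal fun _ : β => A) ≤
      cx (blockDiagonal fun _ : β1 => A) + Fintype.card β2 * cx A := by
  let σ : ι × β → (ι × β1) ⊕ (ι × β2) := fun p => Sum.map (fun b => (p.1, b)) (fun b => (p.1, b))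
    (e p.2)
  have hσ : Function.Injective σ := by
    rintro ⟨i, b⟩ ⟨i', b'⟩ h
    simp only [σ] at h
    rcases h1 : e b with x | x <;> rcases h2 : e b' with y | y <;> simp [h1, h2] at h
    all_goals
      obtain ⟨rfl, rfl⟩ := h
      rw [e.injective (h1.trans h2.symm)]
  have : (blockDiagonal fun _ : β => A) = (fromBlocks (blockDiagonal fun _ : β1 => A) 0 0
      (blockDiagonal fun _ : β2 => A)).submatrix σ σ := by
    ext ⟨i, b⟩ ⟨i', b'⟩
    simp only [submatrix_apply, σ, blockDiagonal_apply, ← e.injective.eq_iff]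
    rcases e b with x | x <;> rcases e b' with y | y <;> simp [blockDiagonal_apply]
  rw [this]
  refine (cx_submatrix _ _ _ hσ).trans ((cx_fromBlocks _ _).trans (add_le_add_right ?_ _))
  simpa using cx_blockDiagonal (fun _ : β2 => A)

theorem saving_abstract {μ W : Type} [Fintype μ] [DecidableEq μ] [Fintype W] [DecidableEq W]
    (f : W → Fr μ) (c : ℕ) (h : Prog f 1 (fun w => f w + 1) c) (w : ℕ)
    (hw : Fintype.card W ≤ 2 ^ w) (Δ : ℝ) (hc : c + Δ ≤ Fintype.card μ * Fintype.card W) :
    ∃ g : ℝ, ∀ k, aC (w + Fintype.card μ * k) ≤ (Fintype.card μ - Δ / 2 ^ w) * aC k + g := by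
  obtain ⟨g, hg⟩ := h.sound
  refine ⟨4 * w + g / 2 ^ w, fun k => ?_⟩
  have h1 := hg (Fin k)
  have e1 : phys (Fin k) f 1 (fun w => f w + 1) = blockDiagonal fun _ : W => Cmat (μ × Fin k) := by
    rw [phys_one]
    simp only [add_sub_cancel_left, Phi_id]
  rw [e1, Fintype.card_fin] at h1
  have h2 := aC_add_le w (μ × Fin k)
  simp only [Fintype.card_prod, Fintype.card_fin] at h2
  obtain ⟨N, hN⟩ := Nat.exists_eq_add_of_le hw
  have e : (Fin w → ZMod 2) ≃ W ⊕ Fin N := Fintype.equivOfCardEq (by simp [hN])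
  have h3 := cx_bd_split e (Cmat (μ × Fin k))
  rw [Fintype.card_fin] at h3
  have h3' : (cx (blockDiagonal fun _ : Fin w → ZMod 2 => Cmat (μ × Fin k)) : ℝ) ≤
      cx (blockDiagonal fun _ : W => Cmat (μ × Fin k)) + N * cx (Cmat (μ × Fin k)) := by
    exact_mod_cast h3
  have h4 := cx_Cmat (μ × Fin k)
  simp only [Fintype.card_prod, Fintype.card_fin] at h4
  have h5 := aC_mul (Fintype.card μ) k
  have h6 := aC_le w
  have hN' : (2 : ℝ) ^ w = Fintype.card W + N := by exact_mod_cast hN
  have hp : (0 : ℝ) < 2 ^ w := by positivity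
  have hq : (0 : ℝ) < 2 ^ (Fintype.card μ * k) := by positivity
  have ha := aC_nonneg k
  have h7 : (cx (blockDiagonal fun _ : Fin w → ZMod 2 => Cmat (μ × Fin k)) : ℝ) /
      2 ^ (w + Fintype.card μ * k) ≤ (Fintype.card μ - Δ / 2 ^ w) * aC k + g / 2 ^ w := by
    rw [div_le_iff₀ (by positivity), pow_add]
    have e2 : ((Fintype.card μ - Δ / 2 ^ w) * aC k + g / 2 ^ w) *
        (2 ^ w * 2 ^ (Fintype.card μ * k)) = 2 ^ (Fintype.card μ * k) *
          ((Fintype.card μ * 2 ^ w - Δ) * aC k + g) := by field_simp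
    rw [e2]
    refine h3'.trans ?_
    rw [h4]
    have h8 : (N : ℝ) * (2 ^ (Fintype.card μ * k) * aC (Fintype.card μ * k)) ≤
        2 ^ (Fintype.card μ * k) * (N * (Fintype.card μ * aC k)) := by
      have : (0 : ℝ) ≤ N := by positivity
      calc (N : ℝ) * (2 ^ (Fintype.card μ * k) * aC (Fintype.card μ * k))
          = 2 ^ (Fintype.card μ * k) * (N * aC (Fintype.card μ * k)) := by ring
        _ ≤ _ := by gcongr
    have h9 : (c : ℝ) * aC k + g + N * (Fintype.card μ * aC k) ≤
        (Fintype.card μ * 2 ^ w - Δ) * aC k + g := by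
      rw [hN']
      nlinarith
    nlinarith
  linarith

theorem card_Tr : Fintype.card (Tr (Fin 24)) = 2024 := by
  have : Fintype.card (Tr (Fin 24)) = Nat.choose (Fintype.card (Fin 24)) 3 :=
    (Fintype.card_congr (Equiv.refl _)).trans (Fintype.card_finset_len 3)
  rw [this, Fintype.card_fin]
  norm_num [Nat.choose]

theorem card_Nb_le (H : Type) [Fintype H] [DecidableEq H] :
    Fintype.card (Nb H) ≤ Fintype.card (Tr H) * Fintype.card (Tr H) := by
  rw [← Fintype.card_prod]
  exact Fintype.card_le_of_injective (fun p : Nb H => p.1) Subtype.val_injective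

theorem card_Wg (H : Type) [Fintype H] [DecidableEq H] : Fintype.card (Wg H) =
    2 * Fintype.card (Tr H) ^ 3 +
      3 * ((Fintype.card (Nb H) + Fintype.card H) * Fintype.card (Tr H) ^ 2) := by
  have hAp : Fintype.card (Ap H) =
      (Fintype.card (Nb H) + Fintype.card H) * (Fintype.card (Tr H) * Fintype.card (Tr H)) := by
    rw [← Fintype.card_sum, ← Fintype.card_prod, ← Fintype.card_prod]; rfl
  simp only [Fintype.card_sum, Fintype.card_prod, hAp]
  ring

theorem saving : ∃ g : ℝ, ∀ k, aC (46 + 13824 * k) ≤ (13824 - 2425172992 / 2 ^ 46) * aC k + g := by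
  obtain ⟨f, c, hp, hc⟩ := network (H := Fin 24) (by simp)
  have hμ : Fintype.card (Fin 24 × Fin 24 × Fin 24) = 13824 := by simp
  have hW : Fintype.card (Wg (Fin 24)) ≤ 2 ^ 46 := by
    have := card_Nb_le (Fin 24)
    rw [card_Tr] at this
    rw [card_Wg, card_Tr, Fintype.card_fin]
    generalize Fintype.card (Nb (Fin 24)) = z at this
    norm_num at this ⊢
    omega
  have := saving_abstract f c hp 46 hW 2425172992 (by
    rw [card_Tr, Fintype.card_fin] at hc
    rw [hμ]
    have : c + 2425172992 = 13824 * Fintype.card (Wg (Fin 24)) := by omega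
    exact_mod_cast this.le)
  rw [hμ] at this
  exact_mod_cast this

/-- The exponent. -/
noncomputable def gam : ℝ := 1 - 1 / 4000000000

theorem rho_lt : (13824 - 2425172992 / 2 ^ 46 : ℝ) < (13824 : ℝ) ^ gam := by
  have hl : Real.log 13824 ≤ 9.71 := by
    have h1 : Real.log 13824 ≤ Real.log (2 ^ 14) := Real.log_le_log (by norm_num) (by norm_num)
    rw [Real.log_pow] at h1
    have := Real.log_two_lt_d9
    push_cast at h1; linarith
  have h2 : (13824 : ℝ) ^ gam = 13824 * Real.exp (-(Real.log 13824 / 4000000000)) := by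
    rw [gam, Real.rpow_sub (by norm_num), Real.rpow_one, Real.rpow_def_of_pos (by norm_num),
      Real.exp_neg]
    congr 2; ring
  have h3 := Real.add_one_le_exp (-(Real.log 13824 / 4000000000))
  rw [h2]
  norm_num at h3 ⊢
  nlinarith

theorem aC_power : ∃ A : ℝ, 0 < A ∧ ∀ K : ℕ, aC K ≤ A * (K : ℝ) ^ gam := by
  obtain ⟨g, hg⟩ := saving
  set ρ : ℝ := 13824 - 2425172992 / 2 ^ 46 with hρ
  have hρ0 : 0 < ρ := by rw [hρ]; norm_num
  have hlt : ρ < (13824 : ℝ) ^ gam := rho_lt
  have hM : (0 : ℝ) < (13824 : ℝ) ^ gam := by positivity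
  have hθ : 0 < 1 - ρ / (13824 : ℝ) ^ gam := by
    rw [sub_pos, div_lt_one hM]; exact hlt
  have hgam : 0 < gam := by unfold gam; norm_num
  set B : ℝ := |g| + 4 * 13824 + 4 * 46 with hB
  have hB0 : 0 < B := by positivity
  set θ := 1 - ρ / (13824 : ℝ) ^ gam with hθdef
  have hθ1 : θ ≤ 1 := by
    have : 0 ≤ ρ / (13824 : ℝ) ^ gam := by positivity
    linarith
  refine ⟨B / θ, by positivity, fun K => ?_⟩
  have hA : B ≤ B / θ := by rw [le_div_iff₀ hθ]; nlinarith
  induction K using Nat.strong_induction_on with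
  | _ K ih =>
    rcases Nat.eq_zero_or_pos K with rfl | hK
    · simp [aC_zero, Real.zero_rpow hgam.ne']
    have hK1 : (1 : ℝ) ≤ (K : ℝ) ^ gam := Real.one_le_rpow (by exact_mod_cast hK) hgam.le
    by_cases hs : K < 46
    · have h1 := aC_le K
      have h2 : (K : ℝ) ≤ 46 := by exact_mod_cast hs.le
      have h3 : 0 ≤ |g| := abs_nonneg g
      have : 0 < B / θ := by positivity
      nlinarith
    · obtain ⟨k, j, hj, hKe⟩ : ∃ k j, j < 13824 ∧ K = (46 + 13824 * k) + j :=
        ⟨(K - 46) / 13824, (K - 46) % 13824, Nat.mod_lt _ (by norm_num), by omega⟩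
      have h1 := aC_add (46 + 13824 * k) j
      rw [← hKe] at h1
      have h2 := hg k
      have h3 := aC_le j
      have h4 : (j : ℝ) ≤ 13824 := by exact_mod_cast hj.le
      have h5 := ih k (by omega)
      have h6 : (k : ℝ) ^ gam * (13824 : ℝ) ^ gam ≤ (K : ℝ) ^ gam := by
        rw [← Real.mul_rpow (by positivity) (by norm_num)]
        refine Real.rpow_le_rpow (by positivity) ?_ hgam.le
        have : k * 13824 ≤ K := by omega
        exact_mod_cast this
      have h7 : ρ * (k : ℝ) ^ gam ≤ (1 - θ) * (K : ℝ) ^ gam := by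
        have e : 1 - θ = ρ / (13824 : ℝ) ^ gam := by rw [hθdef]; ring
        rw [e, div_mul_eq_mul_div, le_div_iff₀ hM]
        nlinarith
      have h8 : ρ * aC k ≤ B / θ * ((1 - θ) * (K : ℝ) ^ gam) := by
        have : 0 < B / θ := by positivity
        calc ρ * aC k ≤ ρ * (B / θ * (k : ℝ) ^ gam) := by gcongr
          _ = B / θ * (ρ * (k : ℝ) ^ gam) := by ring
          _ ≤ _ := by gcongr
      have h9 : B / θ * ((1 - θ) * (K : ℝ) ^ gam) = B / θ * (K : ℝ) ^ gam - B * (K : ℝ) ^ gam := by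
        field_simp
      have h10 : g ≤ |g| := le_abs_self g
      nlinarith

end Vale.Agent.P344
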