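import Vale.Agent.P344.Local

/-! The two framed shear networks. -/

namespace Vale.Agent.P344

open Matrix

set_option linter.unusedSectionVars false

variable (H : Type) [Fintype H] [DecidableEq H]

def Tr := {S : Finset H // S.card = 3}

instance : Fintype (Tr H) := inferInstanceAs (Fintype {S : Finset H // S.card = 3})

noncomputable instance : DecidableEq (Tr H) := Classical.decEq _

def Nb := {p : Tr H × Tr H // Even (p.1.1 ∩ p.2.1).card}

instance : Fintype (Nb H) :=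
  inferInstanceAs (Fintype {p : Tr H × Tr H // Even (p.1.1 ∩ p.2.1).card})

noncomputable instance : DecidableEq (Nb H) := Classical.decEq _

abbrev Wl := (Tr H ⊕ Tr H) ⊕ (Nb H ⊕ H)

variable {H}

def fr (fx fy : Tr H → Fr H) (fa : Nb H → Fr H) (fc : Fr H) : Wl H → Fr H :=
  Sum.elim (Sum.elim fx fy) (Sum.elim fa fun _ => fc)

def fA : Wl H → Fr H := fr (fun S => PS S.1) (fun _ => 0) (fun _ => 0) 0
def fB : Wl H → Fr H := fr (fun S => PS S.1) (fun _ => 0) (fun p => PS p.1.1.1) 0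
def fC : Wl H → Fr H := fr (fun _ => 1) (fun _ => 0) (fun p => PS p.1.1.1) 1
def fD : Wl H → Fr H := fr (fun _ => 1) (fun _ => 0) (fun p => PS p.1.1.1) 0
def fE : Wl H → Fr H := fr (fun _ => 1) (fun T => 1 - PS T.1) (fun p => 1 - PS p.1.2.1) 0
def fF : Wl H → Fr H := fr (fun _ => 1) (fun T => 1 - PS T.1) (fun _ => 1) 1

def cst (a b c d : ℕ) : Wl H → ℕ :=
  Sum.elim (Sum.elim (fun _ => a) (fun _ => b)) (Sum.elim (fun _ => c) fun _ => d)

theorem sum_cst (a b c d : ℕ) : ∑ w : Wl H, cst a b c d w =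
    Fintype.card (Tr H) * a + Fintype.card (Tr H) * b + Fintype.card (Nb H) * c +
      Fintype.card H * d := by
  simp only [cst, Fintype.sum_sum_type, Sum.elim_inl, Sum.elim_inr, Finset.sum_const,
    Finset.card_univ, smul_eq_mul]
  ring

variable (H) in
/-- Cost of one invocation. -/
def cloc : ℕ := 2 * (Fintype.card (Tr H) * (Fintype.card H - 1)) +
  Fintype.card (Nb H) * Fintype.card H + 3 * (Fintype.card H * Fintype.card H)

theorem schedule (hH : 8 ≤ Fintype.card H) {G1 G2 G3 G4 G5 G6 : Matrix (Wl H) (Wl H) ℂ}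
    (h1 : ∀ w w', G1 w w' ≠ 0 → fA w = fA w') (h2 : ∀ w w', G2 w w' ≠ 0 → fB w = fB w')
    (h3 : ∀ w w', G3 w w' ≠ 0 → fC w = fC w') (h4 : ∀ w w', G4 w w' ≠ 0 → fD w = fD w')
    (h5 : ∀ w w', G5 w w' ≠ 0 → fE w = fE w') (h6 : ∀ w w', G6 w w' ≠ 0 → fF w = fF w') :
    Prog fA (G6 * (G5 * (G4 * (G3 * (G2 * G1))))) fF (cloc H) := by
  have p1 := ((Prog.gate h1).then_move (f'' := fB) (cst 0 0 1 0) (by
    rintro ((S | T) | (p | i)) <;> simp only [fA, fB, fr, cst, Sum.elim_inl, Sum.elim_inr,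
      sub_self, sub_zero]
    exacts [Cheap.zero, Cheap.zero, cheap_PS _, Cheap.zero])).then_gate h2
  have p2 := (p1.then_move (f'' := fC) (cst (Fintype.card H - 1) 0 0 (Fintype.card H)) (by
    rintro ((S | T) | (p | i)) <;> simp only [fB, fC, fr, cst, Sum.elim_inl, Sum.elim_inr,
      sub_self, sub_zero]
    exacts [cheap_compl1 hH S.2, Cheap.zero, Cheap.zero, cheap_full])).then_gate h3
  have p3 := (p2.then_move (f'' := fD) (cst 0 0 0 (Fintype.card H)) (by
    rintro ((S | T) | (p | i)) <;> simp only [fC, fD, fr, cst, Sum.elim_inl, Sum.elim_inr,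
      sub_self, zero_sub]
    exacts [Cheap.zero, Cheap.zero, Cheap.zero, cheap_full.neg])).then_gate h4
  have p4 := (p3.then_move (f'' := fE) (cst 0 (Fintype.card H - 1) (Fintype.card H - 2) 0) (by
    rintro ((S | T) | (p | i)) <;> simp only [fD, fE, fr, cst, Sum.elim_inl, Sum.elim_inr,
      sub_self, sub_zero]
    exacts [Cheap.zero, cheap_compl1 hH T.2, cheap_compl2 hH p.1.1.2 p.1.2.2 p.2,
      Cheap.zero])).then_gate h5
  have p5 := (p4.then_move (f'' := fF) (cst 0 0 1 (Fintype.card H)) (by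
    rintro ((S | T) | (p | i)) <;> simp only [fE, fF, fr, cst, Sum.elim_inl, Sum.elim_inr,
      sub_self, sub_zero, sub_sub_cancel]
    exacts [Cheap.zero, Cheap.zero, cheap_PS _, cheap_full])).then_gate h6
  refine p5.of_eq rfl rfl rfl ?_
  simp only [sum_cst, cloc]
  obtain ⟨k, hk⟩ : ∃ k, Fintype.card H = k + 2 := ⟨Fintype.card H - 2, by omega⟩
  rw [hk]
  simp only [Nat.add_sub_cancel, show k + 2 - 1 = k + 1 by omega]
  ring

noncomputable def Mco (S T : Tr H) : ℂ := (((S.1 ∩ T.1).card : ℂ) - 1) / 2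

variable (H)

noncomputable def Ua0 : Matrix (Nb H) (Tr H) ℂ := of fun p S => if S = p.1.1 then 1 else 0
noncomputable def Uc0 : Matrix H (Tr H) ℂ := of fun i S => if i ∈ S.1 then 1 else 0
noncomputable def Va0 : Matrix (Tr H) (Nb H) ℂ :=
  of fun T p => if T = p.1.2 then -Mco p.1.1 p.1.2 else 0
noncomputable def Vc0 : Matrix (Tr H) H ℂ := of fun T i => ((if i ∈ T.1 then 1 else 0) - 1 / 3) / 2

theorem key_identity : ((Va0 H) * (Ua0 H) + (Vc0 H) * (Uc0 H) : Matrix (Tr H) (Tr H) ℂ) = 1 := by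
  ext T S
  have e1 : ((Va0 H) * (Ua0 H) : Matrix (Tr H) (Tr H) ℂ) T S =
      if Even (S.1 ∩ T.1).card then -Mco S T else 0 := by
    simp only [Matrix.mul_apply, Va0, Ua0, of_apply, mul_ite, mul_one, mul_zero]
    split_ifs with h
    · refine (Finset.sum_eq_single (s := Finset.univ) (show Nb H from ⟨(S, T), h⟩) ?_ ?_).trans ?_
      rotate_left 2
      · simp
      · rintro ⟨⟨S', T'⟩, h'⟩ _ hne
        by_cases e : S = S'
        · by_cases e' : T = T'
          · subst e e'; exact absurd rfl hne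
          · simp [e']
        · simp [e]
      · exact fun hn => absurd (Finset.mem_univ _) hn
    · refine Finset.sum_eq_zero ?_
      rintro ⟨⟨S', T'⟩, h'⟩ _
      by_cases e : S = S'
      · by_cases e' : T = T'
        · subst e e'; exact absurd h' h
        · simp [e']
      · simp [e]
  have e2 : ((Vc0 H) * (Uc0 H) : Matrix (Tr H) (Tr H) ℂ) T S = Mco S T := by
    simp only [Matrix.mul_apply, Vc0, Uc0, of_apply, mul_ite, mul_one, mul_zero]
    rw [Finset.sum_ite_mem, Finset.univ_inter, ← Finset.sum_div, Finset.sum_sub_distrib,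
      Finset.sum_ite_mem, Finset.sum_const, Finset.sum_const, S.2, Mco]
    simp
  rw [Matrix.add_apply, e1, e2, Matrix.one_apply]
  have hle : (S.1 ∩ T.1).card ≤ 3 :=
    (Finset.card_le_card Finset.inter_subset_left).trans S.2.le
  by_cases hST : T = S
  · subst hST
    have : (T.1 ∩ T.1).card = 3 := by rw [Finset.inter_self, T.2]
    rw [if_pos rfl, Mco, this, if_neg (by decide)]
    norm_num
  · rw [if_neg hST]
    split_ifs with h
    · ring
    · have h3 : (S.1 ∩ T.1).card ≠ 3 := by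
        intro h3
        apply hST
        have a1 : S.1 ∩ T.1 = S.1 :=
          Finset.eq_of_subset_of_card_le Finset.inter_subset_left (by rw [h3, S.2])
        have a2 : S.1 ∩ T.1 = T.1 :=
          Finset.eq_of_subset_of_card_le Finset.inter_subset_right (by rw [h3, T.2])
        exact Subtype.ext (a2.symm.trans a1)
      have h1 : (S.1 ∩ T.1).card = 1 := by
        rw [Nat.not_even_iff_odd] at h
        obtain ⟨k, hk⟩ := h; omega
      rw [Mco, h1]; simp

noncomputable def Ua : Matrix (Nb H ⊕ H) (Tr H ⊕ Tr H) ℂ := fromBlocks (Ua0 H) 0 0 0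
noncomputable def Uc : Matrix (Nb H ⊕ H) (Tr H ⊕ Tr H) ℂ := fromBlocks 0 0 (Uc0 H) 0
noncomputable def Va : Matrix (Tr H ⊕ Tr H) (Nb H ⊕ H) ℂ := fromBlocks 0 0 (Va0 H) 0
noncomputable def Vc : Matrix (Tr H ⊕ Tr H) (Nb H ⊕ H) ℂ := fromBlocks 0 0 0 (Vc0 H)

theorem UV_zero : (((Ua H) + (Uc H)) * ((Va H) + (Vc H)) : Matrix (Nb H ⊕ H) (Nb H ⊕ H) ℂ) = 0 := by
  simp [Ua, Uc, Va, Vc, fromBlocks_add, fromBlocks_multiply]

theorem VU_eq : (((Va H) + (Vc H)) * ((Ua H) + (Uc H)) : Matrix (Tr H ⊕ Tr H) (Tr H ⊕ Tr H) ℂ) =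
    fromBlocks 0 0 1 0 := by
  simp [Ua, Uc, Va, Vc, fromBlocks_add, fromBlocks_multiply, key_identity H]

variable {H}

theorem relA (a : Nb H ⊕ H) (d : Tr H ⊕ Tr H) (h : ((Va H) + (Vc H) : Matrix _ _ ℂ) d a ≠ 0) :
    fA (Sum.inr a) = fA (Sum.inl d) := by
  rcases a with p | i <;> rcases d with S | T <;> simp [Va, Vc, fA, fr] at h ⊢

theorem relB (a : Nb H ⊕ H) (d : Tr H ⊕ Tr H) (h : ((Ua H) : Matrix _ _ ℂ) a d ≠ 0) :
    fB (Sum.inr a) = fB (Sum.inl d) := by
  rcases a with p | i <;> rcases d with S | T <;> simp [Ua, Ua0, fB, fr] at h ⊢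
  rw [h]

theorem relC (a : Nb H ⊕ H) (d : Tr H ⊕ Tr H) (h : ((Uc H) : Matrix _ _ ℂ) a d ≠ 0) :
    fC (Sum.inr a) = fC (Sum.inl d) := by
  rcases a with p | i <;> rcases d with S | T <;> simp [Uc, fC, fr] at h ⊢

theorem relD (a : Nb H ⊕ H) (d : Tr H ⊕ Tr H) (h : ((Vc H) : Matrix _ _ ℂ) d a ≠ 0) :
    fD (Sum.inr a) = fD (Sum.inl d) := by
  rcases a with p | i <;> rcases d with S | T <;> simp [Vc, fD, fr] at h ⊢

theorem relE (a : Nb H ⊕ H) (d : Tr H ⊕ Tr H) (h : ((Va H) : Matrix _ _ ℂ) d a ≠ 0) :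
    fE (Sum.inr a) = fE (Sum.inl d) := by
  rcases a with p | i <;> rcases d with S | T <;> simp [Va, Va0, fE, fr] at h ⊢
  rw [h.1]

theorem relF (a : Nb H ⊕ H) (d : Tr H ⊕ Tr H) (h : ((Ua H) + (Uc H) : Matrix _ _ ℂ) a d ≠ 0) :
    fF (Sum.inr a) = fF (Sum.inl d) := by
  rcases a with p | i <;> rcases d with S | T <;> simp [Ua, Uc, fF, fr] at h ⊢

/-- `y += x`. -/
theorem shear_fwd (hH : 8 ≤ Fintype.card H) :
    Prog (fA : Wl H → Fr H) (fromBlocks (fromBlocks 1 0 1 1) 0 0 1) fF (cloc H) := by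
  have p := schedule hH (G1 := up (-((Va H) + (Vc H)))) (G2 := low (Ua H)) (G3 := low (Uc H)) (G4 := up (Vc H))
    (G5 := up (Va H)) (G6 := low (-((Ua H) + (Uc H))))
    (resp_up _ _ fun a d h => relA a d (neg_ne_zero.mp h)) (resp_low _ _ relB) (resp_low _ _ relC)
    (resp_up _ _ relD) (resp_up _ _ relE) (resp_low _ _ fun a d h => relF a d (neg_ne_zero.mp h))
  refine p.of_eq rfl ?_ rfl rfl
  rw [← Matrix.mul_assoc (up (Va H)), up_mul_up, ← Matrix.mul_assoc (low (Uc H)), low_mul_low,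
    comm_fwd _ _ (UV_zero H), VU_eq, ← fromBlocks_one, fromBlocks_add]
  simp

/-- `x -= y`. -/
theorem shear_bwd (hH : 8 ≤ Fintype.card H) :
    Prog (fA : Wl H → Fr H) (fromBlocks (fromBlocks 1 (-1) 0 1) 0 0 1) fF (cloc H) := by
  have p := schedule hH (G1 := low ((Va H) + (Vc H))ᵀ) (G2 := up (-(Ua H)ᵀ)) (G3 := up (-(Uc H)ᵀ))
    (G4 := low (-(Vc H)ᵀ)) (G5 := low (-(Va H)ᵀ)) (G6 := up ((Ua H) + (Uc H))ᵀ)
    (resp_low _ _ relA) (resp_up _ _ fun a d h => relB a d (neg_ne_zero.mp h))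
    (resp_up _ _ fun a d h => relC a d (neg_ne_zero.mp h))
    (resp_low _ _ fun a d h => relD a d (neg_ne_zero.mp h))
    (resp_low _ _ fun a d h => relE a d (neg_ne_zero.mp h)) (resp_up _ _ relF)
  refine p.of_eq rfl ?_ rfl rfl
  have e1 : (-(Vc H)ᵀ + -(Va H)ᵀ : Matrix (Nb H ⊕ H) (Tr H ⊕ Tr H) ℂ) = -((Va H) + (Vc H))ᵀ := by
    rw [transpose_add]; abel
  have e2 : (-(Uc H)ᵀ + -(Ua H)ᵀ : Matrix (Tr H ⊕ Tr H) (Nb H ⊕ H) ℂ) = -((Ua H) + (Uc H))ᵀ := by
    rw [transpose_add]; abel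
  rw [← Matrix.mul_assoc (low (-(Va H)ᵀ)), low_mul_low, ← Matrix.mul_assoc (up (-(Uc H)ᵀ)), up_mul_up,
    e1, e2, comm_bwd _ _ (by rw [← transpose_mul, UV_zero, transpose_zero]), ← transpose_mul,
    VU_eq, fromBlocks_transpose, ← fromBlocks_one, sub_eq_add_neg, fromBlocks_neg, fromBlocks_add]
  simp

end Vale.Agent.P344
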