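import Vale.Agent.P344.Depth

/-! Synchronized tensor products of layered matrices. -/

namespace Vale.Agent.P344

open Matrix

set_option linter.unusedSectionVars false

theorem exists_rep {X : Type} [Fintype X] (σ : X → X) (hσ : Function.Involutive σ) :
    ∃ rep : X → X, (∀ x, rep x = x ∨ rep x = σ x) ∧ ∀ x, rep (σ x) = rep x := by
  let enc : X → ℕ := fun x => (Fintype.equivFin X x).val
  have henc : Function.Injective enc := fun x y h => (Fintype.equivFin X).injective (Fin.ext h)
  refine ⟨fun x => if enc x ≤ enc (σ x) then x else σ x, fun x => ?_, fun x => ?_⟩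
  · dsimp only; split_ifs <;> simp
  · dsimp only
    rw [hσ x]
    split_ifs with h1 h2 h2
    · exact henc (le_antisymm h1 h2)
    · rfl
    · rfl
    · omega

/-- Action of `ZMod 2` through an involution. -/
def act {X : Type} (σ : X → X) (s : ZMod 2) (x : X) : X := if s = 0 then x else σ x

theorem sum_cf_act {X : Type} [DecidableEq X] (σ : X → X) (hσ : Function.Involutive σ)
    (s0 : ZMod 2) (b y : X) :
    ∑ s : ZMod 2, cf (s0 - s) * (if y = act σ s b then 1 else 0) = Emat σ (act σ s0 b) y := by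
  have : (Finset.univ : Finset (ZMod 2)) = {0, 1} := by decide
  rw [this, Finset.sum_pair (by decide)]
  have h1 : (0 : ZMod 2) - 1 ≠ 0 := by decide
  rcases zmod2_cases s0 with rfl | rfl
  · simp [cf, act, Emat]
  · simp [cf, act, Emat, hσ b, add_comm]

section
variable {J : Type} [Fintype J] [DecidableEq J] {ι : J → Type} [∀ j, Fintype (ι j)]
  [∀ j, DecidableEq (ι j)]

/-- Point of the orbit of `b`. -/
def orb (σ : ∀ j, ι j → ι j) (b : ∀ j, ι j) (z : {j // σ j (b j) ≠ b j} → ZMod 2) : ∀ j, ι j :=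
  fun j => if h : σ j (b j) ≠ b j then act (σ j) (z ⟨j, h⟩) (b j) else b j

theorem piMat_Emat_orb (σ : ∀ j, ι j → ι j) (hσ : ∀ j, Function.Involutive (σ j))
    (b : ∀ j, ι j) (z0 : {j // σ j (b j) ≠ b j} → ZMod 2) :
    piMat (fun j => Emat (σ j)) (orb σ b z0) =
      (Cmat {j // σ j (b j) ≠ b j} * Pm (orb σ b)) z0 := by
  funext y
  have e1 : ∀ z, (if y = orb σ b z then (1 : ℂ) else 0) =
      (∏ j : {j // σ j (b j) ≠ b j}, if y j = act (σ j) (z j) (b j) then 1 else 0) *
      ∏ j : {j // ¬ σ j (b j) ≠ b j}, if y j = b j then 1 else 0 := by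
    intro z
    have : (if y = orb σ b z then (1 : ℂ) else 0) =
        ∏ j, if y j = orb σ b z j then 1 else 0 := by
      rw [Finset.prod_boole]
      simp [funext_iff]
    rw [this, ← Fintype.prod_subtype_mul_prod_subtype (fun j => σ j (b j) ≠ b j)]
    congr 1
    · exact Finset.prod_congr rfl fun j _ => by rw [orb, dif_pos j.2]
    · exact Finset.prod_congr rfl fun j _ => by rw [orb, dif_neg j.2]
  simp only [Matrix.mul_apply, Pm, e1, Cmat_apply, ← mul_assoc, ← Finset.sum_mul,
    ← Finset.prod_mul_distrib]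
  have e2 := Finset.prod_univ_sum (fun _ : {j // σ j (b j) ≠ b j} => (Finset.univ : Finset (ZMod 2)))
    (fun j s => cf (z0 j - s) * (if y j = act (σ j) s (b j) then 1 else 0))
  rw [Fintype.piFinset_univ] at e2
  rw [← e2, piMat, ← Fintype.prod_subtype_mul_prod_subtype (fun j => σ j (b j) ≠ b j)]
  congr 1
  · exact Finset.prod_congr rfl fun j _ => by rw [orb, dif_pos j.2, sum_cf_act _ (hσ j)]
  · refine Finset.prod_congr rfl fun j _ => ?_
    have hj : σ j (b j) = b j := not_not.mp j.2
    rw [orb, dif_neg j.2]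
    simp only [Emat, of_apply, hj]
    split_ifs <;> simp [al_add_be]

theorem cx_piMat_Emat (σ : ∀ j, ι j → ι j) (hσ : ∀ j, Function.Involutive (σ j)) (a : ℝ)
    (ha : ∀ k ≤ Fintype.card J, aC k ≤ a) :
    (cx (piMat fun j => Emat (σ j)) : ℝ) ≤ Fintype.card (∀ j, ι j) * a := by
  choose rep hr1 hr2 using fun j => exists_rep (σ j) (hσ j)
  have hr3 : ∀ j x, rep j (rep j x) = rep j x := fun j x => by
    rcases hr1 j x with h | h
    · rw [h, h]
    · rw [h, hr2, h]
  let R := {b : ∀ j, ι j // ∀ j, rep j (b j) = b j}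
  have h := cx_le_sum (β := R) (κ' := fun b => {j // σ j (b.1 j) ≠ b.1 j} → ZMod 2)
    (ι' := fun b => {j // σ j (b.1 j) ≠ b.1 j} → ZMod 2) (piMat fun j => Emat (σ j))
    (fun b => Cmat {j // σ j (b.1 j) ≠ b.1 j}) (fun b => Pm (orb σ b.1))
    (fun b z => Pm_mem _ _) (fun x => ?_)
  · have hrep : ∀ (b : R) z j, rep j (orb σ b.1 z j) = b.1 j := by
      intro b z j
      simp only [orb, act]
      split_ifs
      · exact b.2 j
      · rw [hr2]; exact b.2 j
      · exact b.2 j
    have hinj : Function.Injective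
        (fun p : (Σ b : R, ({j // σ j (b.1 j) ≠ b.1 j} → ZMod 2)) => orb σ p.1.1 p.2) := by
      rintro ⟨b, z⟩ ⟨b', z'⟩ h
      have hb : b = b' := Subtype.ext (funext fun j => by
        rw [← hrep b z j, ← hrep b' z' j]; exact congrArg _ (congrFun h j))
      subst hb
      congr
      funext j
      have hj := congrFun h j.1
      simp only [orb, dif_pos j.2, act] at hj
      rcases zmod2_cases (z j) with h1 | h1 <;> rcases zmod2_cases (z' j) with h2 | h2
      · rw [h1, h2]
      · simp only [h1, h2, if_true, one_ne_zero, if_false] at hj; exact absurd hj.symm j.2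
      · simp only [h1, h2, if_true, one_ne_zero, if_false] at hj; exact absurd hj j.2
      · rw [h1, h2]
    have hc := Fintype.card_le_of_injective _ hinj
    rw [Fintype.card_sigma] at hc
    have hc' : ∑ b : R, (2 : ℝ) ^ Fintype.card {j // σ j (b.1 j) ≠ b.1 j} ≤
        Fintype.card (∀ j, ι j) := by
      simp only [Fintype.card_fun, ZMod.card] at hc
      exact_mod_cast hc
    have ha0 : 0 ≤ a := (aC_nonneg 0).trans (ha 0 (Nat.zero_le _))
    calc (cx (piMat fun j => Emat (σ j)) : ℝ)
        ≤ ∑ b : R, (cx (Cmat {j // σ j (b.1 j) ≠ b.1 j}) : ℝ) := by exact_mod_cast h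
      _ ≤ ∑ b : R, (2 : ℝ) ^ Fintype.card {j // σ j (b.1 j) ≠ b.1 j} * a := by
          refine Finset.sum_le_sum fun b _ => ?_
          rw [cx_Cmat]
          exact mul_le_mul_of_nonneg_left (ha _ (Fintype.card_subtype_le _)) (by positivity)
      _ ≤ _ := by rw [← Finset.sum_mul]; exact mul_le_mul_of_nonneg_right hc' ha0
  · refine ⟨⟨fun j => rep j (x j), fun j => hr3 j _⟩,
      fun j => if x j = rep j (x j) then 0 else 1, ?_⟩
    rw [← piMat_Emat_orb σ hσ]
    congr 1
    funext j
    simp only [orb, act]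
    by_cases h2 : x j = rep j (x j)
    · simp only [← h2, if_true, dite_eq_ite, ite_self]
    · have h : rep j (x j) = σ j (x j) := (hr1 j (x j)).resolve_left (Ne.symm h2)
      have h1 : σ j (rep j (x j)) ≠ rep j (x j) := by
        rw [h, hσ j, ← h]; exact h2
      rw [dif_pos h1]
      simp only [h2, if_false, one_ne_zero]
      rw [h, hσ j]

theorem isMono_piMat {M : ∀ j, Matrix (ι j) (ι j) ℂ} (h : ∀ j, IsMono (M j)) :
    IsMono (piMat M) := by
  choose π d hd h using h
  refine ⟨Equiv.piCongrRight π, fun x => ∏ j, d j (x j),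
    fun x => Finset.prod_ne_zero_iff.mpr fun j _ => hd _ _, fun x y => ?_⟩
  simp only [piMat, h]
  by_cases e : y = Equiv.piCongrRight π x
  · subst e; simp
  · rw [if_neg e]
    obtain ⟨j, hj⟩ : ∃ j, y j ≠ π j (x j) := by
      by_contra hc; push Not at hc; exact e (funext hc)
    exact Finset.prod_eq_zero (Finset.mem_univ j) (if_neg hj)

theorem cx_piMat_depth (s : ℕ) (A : ∀ j, Matrix (ι j) (ι j) ℂ) (h : ∀ j, Depth s (A j)) (a : ℝ)
    (ha : ∀ k ≤ Fintype.card J, aC k ≤ a) :
    (cx (piMat A) : ℝ) ≤ Fintype.card (∀ j, ι j) * (s * (a + 1) + 1) := by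
  induction s generalizing A with
  | zero =>
    have := (isMono_piMat h).cx_le
    have h' : (cx (piMat A) : ℝ) ≤ Fintype.card (∀ j, ι j) := by exact_mod_cast this
    simpa using h'
  | succ s ih =>
    choose M σ B h1 h2 h3 h4 using h
    have e : A = fun j => (M j * Emat (σ j)) * B j := funext h4
    rw [e, piMat_mul, piMat_mul]
    have a1 := cx_mul (piMat M * piMat fun j => Emat (σ j)) (piMat B)
    have a2 := cx_mul (piMat M) (piMat fun j => Emat (σ j))
    have a3 := (isMono_piMat h1).cx_le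
    have a4 := cx_piMat_Emat σ h2 a ha
    have a5 := ih B h3
    have a6 : (cx ((piMat M * piMat fun j => Emat (σ j)) * piMat B) : ℝ) ≤
        Fintype.card (∀ j, ι j) + cx (piMat fun j => Emat (σ j)) + cx (piMat B) := by
      exact_mod_cast a1.trans (add_le_add_left (a2.trans (add_le_add_left a3 _)) _)
    push_cast
    linarith

end

end Vale.Agent.P344
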